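import Vale.Agent.P065.H183.JView

/-! # P065, upper bound: [CENTRE] (helper183) -/

set_option autoImplicit false

namespace Vale.Agent.P065.H183

open Finset Vale.Agent.P065.UB Vale.Agent.P065.UB.RankAux

theorem sl_comm (x y : Pt) : sl x y = sl y x := by
  unfold sl
  rw [← neg_sub x.2 y.2, ← neg_sub x.1 y.1, neg_div_neg_eq]

theorem Jn.symm {I : ℕ → Set ℝ} {R : ℕ → Finset Pt} {w : ℕ} {x y : Pt} (h : Jn I R w x y) :
    Jn I R w y x := ⟨h.2.1, h.1, h.2.2.1.symm, by rw [sl_comm]; exact h.2.2.2⟩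

/-- joined by a window of `WW` -/
def JJ (I : ℕ → Set ℝ) (R : ℕ → Finset Pt) (WW : Finset ℕ) (x y : Pt) : Prop :=
  ∃ w ∈ WW, Jn I R w x y

theorem JJ.symm {I : ℕ → Set ℝ} {R : ℕ → Finset Pt} {WW : Finset ℕ} {x y : Pt}
    (h : JJ I R WW x y) : JJ I R WW y x := by
  obtain ⟨w, hw, h⟩ := h
  exact ⟨w, hw, h.symm⟩

open Classical in
/-- triangles with windows in `WW` -/
noncomputable def Tri (Q : Finset Pt) (I : ℕ → Set ℝ) (R : ℕ → Finset Pt) (WW : Finset ℕ) :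
    Finset (Pt × Pt × Pt) :=
  {t ∈ Q ×ˢ Q ×ˢ Q | JJ I R WW t.1 t.2.1 ∧ JJ I R WW t.2.1 t.2.2 ∧ JJ I R WW t.1 t.2.2}

theorem mem_Tri {Q : Finset Pt} {I : ℕ → Set ℝ} {R : ℕ → Finset Pt} {WW : Finset ℕ}
    {x y z : Pt} : (x, y, z) ∈ Tri Q I R WW ↔ (x ∈ Q ∧ y ∈ Q ∧ z ∈ Q) ∧
      JJ I R WW x y ∧ JJ I R WW y z ∧ JJ I R WW x z := by
  classical
  unfold Tri
  simp only [Finset.mem_filter, Finset.mem_product]

section
variable {K lam : ℝ} {Q : Finset Pt} {W : Finset ℕ} {I : ℕ → Set ℝ} {R : ℕ → Finset Pt}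

theorem JView.uniq (h : JView K lam Q W I R) {w w' : ℕ} (hw : w ∈ W) (hw' : w' ∈ W) {x y : Pt}
    (h1 : Jn I R w x y) (h2 : Jn I R w' x y) : w = w' := by
  by_contra hne
  exact Set.disjoint_left.1 (h.disj w hw w' hw' hne) h1.2.2.2 h2.2.2.2

theorem Sw_sub_Jn {w : ℕ} {M : Finset Pt} (hM : M ⊆ R w) {e : Pt × Pt} (he : e ∈ Sw M (I w)) :
    e.1 ∈ M ∧ e.2 ∈ M ∧ Jn I R w e.1 e.2 := by
  classical
  unfold Sw at he
  rw [Finset.mem_filter, Finset.mem_product] at he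
  exact ⟨he.1.1, he.1.2, hM he.1.1, hM he.1.2, ne_of_lt he.2.1, he.2.2⟩

/-- lower bound for the number of joined pairs of a dense subset of `R w` -/
theorem JView.join_low (h : JView K lam Q W I R) {w : ℕ} (hw : w ∈ W) {M : Finset Pt}
    (hM : M ⊆ R w) {t : ℝ} (ht : 0 < t) (hN : (#Q : ℝ) ≤ t * lam * #M)
    (hbig : 2 * K * t ^ 6 * lam ^ 2 ≤ (#Q : ℝ) ^ 2) (hQ : (0 : ℝ) < #Q) :
    (#Q : ℝ) ^ 2 ≤ 2 * K * t ^ 6 * lam ^ 2 * #(Sw M (I w)) := by
  have hK := h.two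
  have hl := h.one
  have h1 := h.join w hw M hM
  have h2 : (#Q : ℝ) ^ 6 ≤ (t * lam * #M) ^ 6 := pow_le_pow_left₀ hQ.le hN 6
  have h3 : (#Q : ℝ) ^ 6 ≤ t ^ 6 * lam ^ 2 * (lam ^ 4 * (#M : ℝ) ^ 6) := by
    calc (#Q : ℝ) ^ 6 ≤ (t * lam * #M) ^ 6 := h2
      _ = t ^ 6 * lam ^ 2 * (lam ^ 4 * (#M : ℝ) ^ 6) := by ring
  have h4 : (#Q : ℝ) ^ 6 ≤ t ^ 6 * lam ^ 2 * (K * (#Q : ℝ) ^ 4 * (#(Sw M (I w)) + 1)) :=
    h3.trans (mul_le_mul_of_nonneg_left h1 (by positivity))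
  have h5 : (#Q : ℝ) ^ 4 * (#Q : ℝ) ^ 2 ≤
      (#Q : ℝ) ^ 4 * (K * t ^ 6 * lam ^ 2 * (#(Sw M (I w)) + 1)) := by
    calc (#Q : ℝ) ^ 4 * (#Q : ℝ) ^ 2 = (#Q : ℝ) ^ 6 := by ring
      _ ≤ _ := h4
      _ = _ := by ring
  have h6 : (#Q : ℝ) ^ 2 ≤ K * t ^ 6 * lam ^ 2 * (#(Sw M (I w)) + 1) :=
    le_of_mul_le_mul_left h5 (by positivity)
  nlinarith

end

/-- averaging: if the sum of `f` over `A` is at least `s` and each `f` is at most `m`, and the
elements with `f < b` are harmless, then many elements have `f ≥ b` -/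
theorem many_of_sum {α : Type*} (A : Finset α) (f : α → ℝ) (s m b : ℝ)
    (hf : ∀ a ∈ A, f a ≤ m) (hs : s ≤ ∑ a ∈ A, f a) (hb : 2 * (b * #A) ≤ s) (hb0 : 0 ≤ b) :
    s ≤ 2 * m * #{a ∈ A | b ≤ f a} := by
  classical
  have h1 : ∑ a ∈ A, f a = ∑ a ∈ A with b ≤ f a, f a + ∑ a ∈ A with ¬ b ≤ f a, f a :=
    (Finset.sum_filter_add_sum_filter_not A (fun a => b ≤ f a) f).symm
  have h2 : ∑ a ∈ A with b ≤ f a, f a ≤ #{a ∈ A | b ≤ f a} * m := by
    rw [← nsmul_eq_mul]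
    exact Finset.sum_le_card_nsmul _ _ _ (fun a ha => hf a (Finset.mem_filter.1 ha).1)
  have h3 : ∑ a ∈ A with ¬ b ≤ f a, f a ≤ #{a ∈ A | ¬ b ≤ f a} * b := by
    rw [← nsmul_eq_mul]
    exact Finset.sum_le_card_nsmul _ _ _ (fun a ha => (not_le.1 (Finset.mem_filter.1 ha).2).le)
  have h4 : (#{a ∈ A | ¬ b ≤ f a} : ℝ) ≤ #A := by exact_mod_cast Finset.card_filter_le _ _
  have h5 : (#{a ∈ A | ¬ b ≤ f a} : ℝ) * b ≤ #A * b := mul_le_mul_of_nonneg_right h4 hb0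
  linarith

section
variable {K lam : ℝ} {Q : Finset Pt} {W : Finset ℕ} {I : ℕ → Set ℝ} {R : ℕ → Finset Pt}

open Classical in
/-- points lying in many rich sets -/
noncomputable def XX (K lam : ℝ) (Q : Finset Pt) (W : Finset ℕ) (R : ℕ → Finset Pt) : Finset Pt :=
  {x ∈ Q | lam ≤ K ^ 3 * #{w ∈ W | x ∈ R w}}

open Classical in
theorem sum_R (X : Finset Pt) :
    ∑ w ∈ W, (#(R w ∩ X) : ℝ) = ∑ x ∈ X, (#{w ∈ W | x ∈ R w} : ℝ) := by
  have : ∀ w, (#(R w ∩ X) : ℝ) = ∑ x ∈ X, if x ∈ R w then (1 : ℝ) else 0 := by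
    intro w
    rw [Finset.sum_boole, Finset.inter_comm, Finset.filter_mem_eq_inter]
  simp only [this]
  rw [Finset.sum_comm]
  refine Finset.sum_congr rfl fun x _ => ?_
  rw [Finset.sum_boole]

open Classical in
/-- Step C: many windows have many points in `XX` -/
theorem JView.good_windows (h : JView K lam Q W I R) (hQ : (0 : ℝ) < #Q) :
    lam ^ 2 ≤ K ^ 5 * #{w ∈ W | (#Q : ℝ) ≤ K ^ 5 * lam * #(R w ∩ XX K lam Q W R)} := by
  have hK := h.two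
  have hl := h.one
  have hK0 : (0 : ℝ) < K := by linarith
  have hl0 : (0 : ℝ) < lam := by linarith
  set X := XX K lam Q W R with hXdef
  have hXQ : X ⊆ Q := Finset.filter_subset _ _
  -- total
  have h1 : lam * #Q ≤ K ^ 2 * ∑ w ∈ W, (#(R w) : ℝ) := by
    have : ∑ w ∈ W, (#Q : ℝ) ≤ ∑ w ∈ W, K * lam * #(R w) := Finset.sum_le_sum h.cardR'
    rw [Finset.sum_const, nsmul_eq_mul, ← Finset.mul_sum] at this
    have h2 := h.cardW'
    have h3 : lam ^ 2 * #Q ≤ K * #W * #Q := mul_le_mul_of_nonneg_right h2 hQ.le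
    have h4 : lam * (lam * #Q) ≤ lam * (K ^ 2 * ∑ w ∈ W, (#(R w) : ℝ)) := by nlinarith
    exact le_of_mul_le_mul_left h4 hl0
  have h2 : ∀ w ∈ W, (#(R w) : ℝ) = #(R w ∩ X) + #(R w ∩ (Q \ X)) := by
    intro w hw
    have hsub := h.subR w hw
    have : R w = (R w ∩ X) ∪ (R w ∩ (Q \ X)) := by
      ext x
      simp only [Finset.mem_union, Finset.mem_inter, Finset.mem_sdiff]
      constructor
      · intro hx
        by_cases hxX : x ∈ X
        · exact Or.inl ⟨hx, hxX⟩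
        · exact Or.inr ⟨hx, hsub hx, hxX⟩
      · rintro (hx | hx) <;> exact hx.1
    have hd : Disjoint (R w ∩ X) (R w ∩ (Q \ X)) := by
      rw [Finset.disjoint_left]
      intro x hx hx'
      exact (Finset.mem_sdiff.1 (Finset.mem_inter.1 hx').2).2 (Finset.mem_inter.1 hx).2
    have h3 := Finset.card_union_of_disjoint hd
    rw [← this] at h3
    exact_mod_cast h3
  have h3 : ∑ w ∈ W, (#(R w ∩ (Q \ X)) : ℝ) * K ^ 3 ≤ #Q * lam := by
    rw [← Finset.sum_mul, sum_R (Q \ X), Finset.sum_mul]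
    have : ∀ x ∈ Q \ X, (#{w ∈ W | x ∈ R w} : ℝ) * K ^ 3 ≤ lam := by
      intro x hx
      obtain ⟨hxQ, hxX⟩ := Finset.mem_sdiff.1 hx
      have : ¬ lam ≤ K ^ 3 * #{w ∈ W | x ∈ R w} := by
        intro hc
        exact hxX (Finset.mem_filter.2 ⟨hxQ, hc⟩)
      rw [mul_comm]
      exact (not_le.1 this).le
    refine (Finset.sum_le_sum this).trans ?_
    rw [Finset.sum_const, nsmul_eq_mul]
    refine mul_le_mul_of_nonneg_right ?_ hl0.le
    exact_mod_cast Finset.card_le_card Finset.sdiff_subset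
  have h4 : ∑ w ∈ W, (#(R w) : ℝ) = ∑ w ∈ W, (#(R w ∩ X) : ℝ) + ∑ w ∈ W, (#(R w ∩ (Q \ X)) : ℝ) := by
    rw [← Finset.sum_add_distrib]
    exact Finset.sum_congr rfl h2
  rw [← Finset.sum_mul] at h3
  have h5 : lam * #Q ≤ K ^ 3 * ∑ w ∈ W, (#(R w ∩ X) : ℝ) := by
    set A := ∑ w ∈ W, (#(R w ∩ X) : ℝ) with hA
    set B := ∑ w ∈ W, (#(R w ∩ (Q \ X)) : ℝ) with hB
    have hA0 : 0 ≤ A := Finset.sum_nonneg fun _ _ => by positivity
    have hB0 : 0 ≤ B := Finset.sum_nonneg fun _ _ => by positivity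
    rw [h4] at h1
    -- K^2 B * K ≤ lam Q
    have h6 : K * (K ^ 2 * B) ≤ #Q * lam := by nlinarith
    have h7 : 2 * (K ^ 2 * B) ≤ #Q * lam := by nlinarith [mul_nonneg (pow_nonneg hK0.le 2) hB0]
    nlinarith [mul_nonneg (pow_nonneg hK0.le 2) hA0]
  have h6 := many_of_sum W (fun w => (#(R w ∩ X) : ℝ)) (lam * #Q / K ^ 3) (K * #Q / lam)
    (#Q / (K ^ 5 * lam)) (fun w hw => by
      have h7 : (#(R w ∩ X) : ℝ) ≤ #(R w) := by
        exact_mod_cast Finset.card_le_card Finset.inter_subset_left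
      have h8 := h.cardR w hw
      rw [le_div_iff₀ hl0]
      nlinarith) (by rw [div_le_iff₀ (by positivity)]; linarith) (by
        have h9 := h.cardW
        have : #Q / (K ^ 5 * lam) * (#W : ℝ) ≤ #Q / (K ^ 5 * lam) * (K * lam ^ 2) :=
          mul_le_mul_of_nonneg_left h9 (by positivity)
        have h10 : #Q / (K ^ 5 * lam) * (K * lam ^ 2) = lam * #Q / K ^ 4 := by
          field_simp
        have h11 : 2 * (lam * #Q / K ^ 4) ≤ lam * #Q / K ^ 3 := by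
          rw [← mul_div_assoc, div_le_div_iff₀ (by positivity) (by positivity)]
          have : 0 ≤ lam * #Q * K ^ 3 := by positivity
          nlinarith
        linarith) (by positivity)
  have h7 : ∀ w, (#Q / (K ^ 5 * lam) ≤ (#(R w ∩ X) : ℝ)) ↔
      ((#Q : ℝ) ≤ K ^ 5 * lam * #(R w ∩ X)) := by
    intro w
    rw [div_le_iff₀ (by positivity), mul_comm]
  simp only [h7] at h6
  set G := #{w ∈ W | (#Q : ℝ) ≤ K ^ 5 * lam * #(R w ∩ X)} with hG
  have h8 : lam * #Q / K ^ 3 * (K ^ 4 * lam) ≤ 2 * (K * #Q / lam) * G * (K ^ 4 * lam) :=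
    mul_le_mul_of_nonneg_right h6 (by positivity)
  have h9 : lam * #Q / K ^ 3 * (K ^ 4 * lam) = #Q * (K * lam ^ 2) := by field_simp
  have h10 : 2 * (K * #Q / lam) * (G : ℝ) * (K ^ 4 * lam) = #Q * (2 * K ^ 5 * G) := by field_simp
  rw [h9, h10] at h8
  have h11 : K * lam ^ 2 ≤ 2 * K ^ 5 * G := le_of_mul_le_mul_left h8 hQ
  nlinarith [sq_nonneg lam]

end

section
variable {K lam : ℝ} {Q : Finset Pt} {W : Finset ℕ} {I : ℕ → Set ℝ} {R : ℕ → Finset Pt}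

open Classical in
/-- joined pairs inside `XX` -/
noncomputable def JP (K lam : ℝ) (Q : Finset Pt) (W : Finset ℕ) (I : ℕ → Set ℝ)
    (R : ℕ → Finset Pt) : Finset (Pt × Pt) :=
  {e ∈ XX K lam Q W R ×ˢ XX K lam Q W R | JJ I R W e.1 e.2}

theorem XX_sub : XX K lam Q W R ⊆ Q := by
  classical
  exact Finset.filter_subset _ _

open Classical in
/-- Step C': many joined pairs -/
theorem JView.pairs_low (h : JView K lam Q W I R) (hQ : lam ^ 2 ≤ (#Q : ℝ))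
    (hbig : K ^ 32 ≤ lam) : (#Q : ℝ) ^ 2 ≤ K ^ 37 * #(JP K lam Q W I R) := by
  have hK := h.two
  have hl := h.one
  have hK0 : (0 : ℝ) < K := by linarith
  have hl0 : (0 : ℝ) < lam := by linarith
  have hQ0 : (0 : ℝ) < #Q := lt_of_lt_of_le (by positivity) hQ
  set X := XX K lam Q W R with hX
  set G := {w ∈ W | (#Q : ℝ) ≤ K ^ 5 * lam * #(R w ∩ X)} with hG
  have hgood : lam ^ 2 ≤ K ^ 5 * #G := h.good_windows hQ0
  have hbig2 : 2 * K * (K ^ 5) ^ 6 * lam ^ 2 ≤ (#Q : ℝ) ^ 2 := by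
    have h1 : 2 * K * (K ^ 5) ^ 6 ≤ K ^ 32 := by
      have : 2 * K * (K ^ 5) ^ 6 = 2 * K ^ 31 := by ring
      rw [this]
      have : K ^ 32 = K * K ^ 31 := by ring
      rw [this]
      exact mul_le_mul_of_nonneg_right hK (by positivity)
    have h2 : K ^ 32 ≤ lam ^ 2 := hbig.trans (by nlinarith)
    calc 2 * K * (K ^ 5) ^ 6 * lam ^ 2 ≤ lam ^ 2 * lam ^ 2 :=
          mul_le_mul_of_nonneg_right (h1.trans h2) (by positivity)
      _ ≤ #Q * #Q := mul_le_mul hQ hQ (by positivity) (by positivity)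
      _ = (#Q : ℝ) ^ 2 := by ring
  have hlow : ∀ w ∈ G, (#Q : ℝ) ^ 2 ≤ K ^ 32 * lam ^ 2 * #(Sw (R w ∩ X) (I w)) := by
    intro w hw
    obtain ⟨hwW, hw2⟩ := Finset.mem_filter.1 hw
    have h1 := h.join_low hwW (M := R w ∩ X) Finset.inter_subset_left (t := K ^ 5)
      (by positivity) hw2 hbig2 hQ0
    refine h1.trans ?_
    have h2 : 2 * K * (K ^ 5) ^ 6 ≤ K ^ 32 := by
      have : 2 * K * (K ^ 5) ^ 6 = 2 * K ^ 31 := by ring
      rw [this]
      have : K ^ 32 = K * K ^ 31 := by ring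
      rw [this]
      exact mul_le_mul_of_nonneg_right hK (by positivity)
    exact mul_le_mul_of_nonneg_right (mul_le_mul_of_nonneg_right h2 (by positivity))
      (by positivity)
  have hsum : ∑ w ∈ G, (#(Sw (R w ∩ X) (I w)) : ℝ) ≤ #(JP K lam Q W I R) := by
    rw [← Nat.cast_sum, Nat.cast_le, ← Finset.card_biUnion]
    · refine Finset.card_le_card ?_
      intro e he
      obtain ⟨w, hw, he⟩ := Finset.mem_biUnion.1 he
      have hwW := (Finset.mem_filter.1 hw).1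
      have h1 := Sw_sub_Jn (R := R) (M := R w ∩ X) Finset.inter_subset_left he
      unfold JP
      rw [Finset.mem_filter, Finset.mem_product]
      exact ⟨⟨(Finset.mem_inter.1 h1.1).2, (Finset.mem_inter.1 h1.2.1).2⟩, w, hwW, h1.2.2⟩
    · intro w hw w' hw' hne
      rw [Function.onFun, Finset.disjoint_left]
      intro e he he'
      have h1 := Sw_sub_Jn (R := R) (M := R w ∩ X) Finset.inter_subset_left he
      have h2 := Sw_sub_Jn (R := R) (M := R w' ∩ X) Finset.inter_subset_left he'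
      exact hne (h.uniq (Finset.mem_filter.1 hw).1 (Finset.mem_filter.1 hw').1 h1.2.2 h2.2.2)
  have h1 : (#G : ℝ) * (#Q : ℝ) ^ 2 ≤ K ^ 32 * lam ^ 2 * #(JP K lam Q W I R) := by
    have : ∑ _w ∈ G, (#Q : ℝ) ^ 2 ≤ ∑ w ∈ G, K ^ 32 * lam ^ 2 * #(Sw (R w ∩ X) (I w)) :=
      Finset.sum_le_sum hlow
    rw [Finset.sum_const, nsmul_eq_mul, ← Finset.mul_sum] at this
    exact this.trans (mul_le_mul_of_nonneg_left hsum (by positivity))
  have h2 : lam ^ 2 * (#Q : ℝ) ^ 2 ≤ lam ^ 2 * (K ^ 37 * #(JP K lam Q W I R)) := by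
    calc lam ^ 2 * (#Q : ℝ) ^ 2 ≤ K ^ 5 * #G * (#Q : ℝ) ^ 2 :=
          mul_le_mul_of_nonneg_right hgood (by positivity)
      _ = K ^ 5 * (#G * (#Q : ℝ) ^ 2) := by ring
      _ ≤ K ^ 5 * (K ^ 32 * lam ^ 2 * #(JP K lam Q W I R)) :=
          mul_le_mul_of_nonneg_left h1 (by positivity)
      _ = lam ^ 2 * (K ^ 37 * #(JP K lam Q W I R)) := by ring
  exact le_of_mul_le_mul_left h2 (by positivity)

open Classical in
/-- the points of `R w` joined to `q` (first member in `XX`) -/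
noncomputable def SS (K lam : ℝ) (Q : Finset Pt) (W : Finset ℕ) (I : ℕ → Set ℝ)
    (R : ℕ → Finset Pt) (p : ℕ × Pt) : Finset Pt :=
  {a ∈ R p.1 | (a, p.2) ∈ JP K lam Q W I R}

open Classical in
theorem sum_SS :
    ∑ p ∈ W ×ˢ Q, (#(SS K lam Q W I R p) : ℝ) =
      ∑ e ∈ JP K lam Q W I R, (#{w ∈ W | e.1 ∈ R w} : ℝ) := by
  have hJQ : ∀ e ∈ JP K lam Q W I R, e.2 ∈ Q := by
    intro e he
    unfold JP at he
    exact XX_sub (Finset.mem_product.1 (Finset.mem_filter.1 he).1).2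
  rw [← Nat.cast_sum, ← Nat.cast_sum, Nat.cast_inj]
  rw [← Finset.card_sigma, ← Finset.card_sigma]
  refine Finset.card_bij' (fun x _ => (⟨(x.2, x.1.2), x.1.1⟩ : (_ : Pt × Pt) × ℕ))
    (fun y _ => (⟨(y.2, y.1.2), y.1.1⟩ : (_ : ℕ × Pt) × Pt)) ?_ ?_ ?_ ?_
  · rintro ⟨⟨w, q⟩, a⟩ hx
    rw [Finset.mem_sigma] at hx ⊢
    simp only [SS, Finset.mem_product, Finset.mem_filter] at hx ⊢
    exact ⟨hx.2.2, hx.1.1, hx.2.1⟩
  · rintro ⟨⟨a, q⟩, w⟩ hx
    rw [Finset.mem_sigma] at hx ⊢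
    simp only [SS, Finset.mem_product, Finset.mem_filter] at hx ⊢
    exact ⟨⟨hx.2.1, hJQ _ hx.1⟩, hx.2.2, hx.1⟩
  · rintro ⟨⟨w, q⟩, a⟩ _
    rfl
  · rintro ⟨⟨a, q⟩, w⟩ _
    rfl

open Classical in
/-- Step D -/
theorem JView.rich_pairs (h : JView K lam Q W I R) (hQ : lam ^ 2 ≤ (#Q : ℝ))
    (hbig : K ^ 32 ≤ lam) : lam ^ 2 * #Q ≤
      K ^ 42 * #{p ∈ W ×ˢ Q | (#Q : ℝ) ≤ K ^ 43 * lam * #(SS K lam Q W I R p)} := by
  have hK := h.two
  have hl := h.one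
  have hK0 : (0 : ℝ) < K := by linarith
  have hl0 : (0 : ℝ) < lam := by linarith
  have hQ0 : (0 : ℝ) < #Q := lt_of_lt_of_le (by positivity) hQ
  have h1 := h.pairs_low hQ hbig
  have h2 : lam * #(JP K lam Q W I R) ≤
      K ^ 3 * ∑ p ∈ W ×ˢ Q, (#(SS K lam Q W I R p) : ℝ) := by
    rw [sum_SS, Finset.mul_sum]
    have : ∀ e ∈ JP K lam Q W I R, lam ≤ K ^ 3 * (#{w ∈ W | e.1 ∈ R w} : ℝ) := by
      intro e he
      unfold JP at he
      have := (Finset.mem_product.1 (Finset.mem_filter.1 he).1).1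
      unfold XX at this
      exact (Finset.mem_filter.1 this).2
    calc lam * #(JP K lam Q W I R) = ∑ _e ∈ JP K lam Q W I R, lam := by
          rw [Finset.sum_const, nsmul_eq_mul, mul_comm]
      _ ≤ _ := Finset.sum_le_sum this
  have h3 : lam * (#Q : ℝ) ^ 2 ≤ K ^ 40 * ∑ p ∈ W ×ˢ Q, (#(SS K lam Q W I R p) : ℝ) := by
    calc lam * (#Q : ℝ) ^ 2 ≤ lam * (K ^ 37 * #(JP K lam Q W I R)) :=
          mul_le_mul_of_nonneg_left h1 hl0.le
      _ = K ^ 37 * (lam * #(JP K lam Q W I R)) := by ring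
      _ ≤ K ^ 37 * (K ^ 3 * ∑ p ∈ W ×ˢ Q, (#(SS K lam Q W I R p) : ℝ)) :=
          mul_le_mul_of_nonneg_left h2 (by positivity)
      _ = _ := by ring
  have h6 := many_of_sum (W ×ˢ Q) (fun p => (#(SS K lam Q W I R p) : ℝ))
    (lam * (#Q : ℝ) ^ 2 / K ^ 40) (K * #Q / lam) (#Q / (K ^ 43 * lam)) (fun p hp => by
      have hpW := (Finset.mem_product.1 hp).1
      have h7 : (#(SS K lam Q W I R p) : ℝ) ≤ #(R p.1) := by
        exact_mod_cast Finset.card_le_card (Finset.filter_subset _ _)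
      have h8 := h.cardR p.1 hpW
      rw [le_div_iff₀ hl0]
      nlinarith) (by rw [div_le_iff₀ (by positivity)]; linarith) (by
        have h9 := h.cardW
        rw [Finset.card_product]
        push_cast
        have : #Q / (K ^ 43 * lam) * ((#W : ℝ) * #Q) ≤ #Q / (K ^ 43 * lam) * (K * lam ^ 2 * #Q) :=
          mul_le_mul_of_nonneg_left (mul_le_mul_of_nonneg_right h9 hQ0.le) (by positivity)
        have h10 : #Q / (K ^ 43 * lam) * (K * lam ^ 2 * #Q) = lam * (#Q : ℝ) ^ 2 / K ^ 42 := by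
          field_simp
        have h11 : 2 * (lam * (#Q : ℝ) ^ 2 / K ^ 42) ≤ lam * (#Q : ℝ) ^ 2 / K ^ 40 := by
          rw [← mul_div_assoc, div_le_div_iff₀ (by positivity) (by positivity)]
          have h12 : 0 ≤ lam * (#Q : ℝ) ^ 2 * K ^ 40 := by positivity
          have h13 : K ^ 42 = K ^ 40 * (K * K) := by ring
          rw [h13]
          nlinarith [mul_le_mul hK hK (by norm_num) hK0.le]
        linarith) (by positivity)
  have h7 : ∀ p, (#Q / (K ^ 43 * lam) ≤ (#(SS K lam Q W I R p) : ℝ)) ↔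
      ((#Q : ℝ) ≤ K ^ 43 * lam * #(SS K lam Q W I R p)) := by
    intro p
    rw [div_le_iff₀ (by positivity), mul_comm]
  simp only [h7] at h6
  set G := #{p ∈ W ×ˢ Q | (#Q : ℝ) ≤ K ^ 43 * lam * #(SS K lam Q W I R p)} with hG
  have h8 : lam * (#Q : ℝ) ^ 2 / K ^ 40 * (K ^ 40 * lam) ≤
      2 * (K * #Q / lam) * G * (K ^ 40 * lam) :=
    mul_le_mul_of_nonneg_right h6 (by positivity)
  have h9 : lam * (#Q : ℝ) ^ 2 / K ^ 40 * (K ^ 40 * lam) = #Q * (lam ^ 2 * #Q) := by field_simp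
  have h10 : 2 * (K * #Q / lam) * (G : ℝ) * (K ^ 40 * lam) = #Q * (2 * K ^ 41 * G) := by field_simp
  rw [h9, h10] at h8
  have h11 : lam ^ 2 * #Q ≤ 2 * K ^ 41 * G := le_of_mul_le_mul_left h8 hQ0
  have h12 : 2 * K ^ 41 * (G : ℝ) ≤ K ^ 42 * G := by
    have : K ^ 42 = K * K ^ 41 := by ring
    rw [this]
    exact mul_le_mul_of_nonneg_right (mul_le_mul_of_nonneg_right hK (by positivity))
      (by positivity)
  linarith

open Classical in
/-- Step E: many triangles -/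
theorem JView.tri_low (h : JView K lam Q W I R) (hQ : lam ^ 2 ≤ (#Q : ℝ))
    (hbig : K ^ 260 ≤ lam) : (#Q : ℝ) ^ 3 ≤ K ^ 302 * #(Tri Q I R W) := by
  have hK := h.two
  have hl := h.one
  have hK0 : (0 : ℝ) < K := by linarith
  have hK1 : (1 : ℝ) ≤ K := by linarith
  have hl0 : (0 : ℝ) < lam := by linarith
  have hQ0 : (0 : ℝ) < #Q := lt_of_lt_of_le (by positivity) hQ
  have hbig' : K ^ 32 ≤ lam := (pow_le_pow_right₀ hK1 (by norm_num)).trans hbig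
  set G := {p ∈ W ×ˢ Q | (#Q : ℝ) ≤ K ^ 43 * lam * #(SS K lam Q W I R p)} with hG
  have hgood : lam ^ 2 * #Q ≤ K ^ 42 * #G := h.rich_pairs hQ hbig'
  have h258 : 2 * K * (K ^ 43) ^ 6 ≤ K ^ 260 := by
    have : 2 * K * (K ^ 43) ^ 6 = 2 * K ^ 259 := by ring
    rw [this]
    have : K ^ 260 = K * K ^ 259 := by ring
    rw [this]
    exact mul_le_mul_of_nonneg_right hK (by positivity)
  have hbig2 : 2 * K * (K ^ 43) ^ 6 * lam ^ 2 ≤ (#Q : ℝ) ^ 2 := by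
    have h2 : K ^ 260 ≤ lam ^ 2 := hbig.trans (by nlinarith)
    calc 2 * K * (K ^ 43) ^ 6 * lam ^ 2 ≤ lam ^ 2 * lam ^ 2 :=
          mul_le_mul_of_nonneg_right (h258.trans h2) (by positivity)
      _ ≤ #Q * #Q := mul_le_mul hQ hQ (by positivity) (by positivity)
      _ = (#Q : ℝ) ^ 2 := by ring
  have hSR : ∀ p, SS K lam Q W I R p ⊆ R p.1 := fun p => Finset.filter_subset _ _
  have hlow : ∀ p ∈ G, (#Q : ℝ) ^ 2 ≤
      K ^ 260 * lam ^ 2 * #(Sw (SS K lam Q W I R p) (I p.1)) := by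
    intro p hp
    obtain ⟨hpW, hp2⟩ := Finset.mem_filter.1 hp
    have h1 := h.join_low (Finset.mem_product.1 hpW).1 (M := SS K lam Q W I R p) (hSR p)
      (t := K ^ 43) (by positivity) hp2 hbig2 hQ0
    refine h1.trans ?_
    exact mul_le_mul_of_nonneg_right (mul_le_mul_of_nonneg_right h258 (by positivity))
      (by positivity)
  have hsum : ∑ p ∈ G, (#(Sw (SS K lam Q W I R p) (I p.1)) : ℝ) ≤ #(Tri Q I R W) := by
    rw [← Nat.cast_sum, Nat.cast_le, ← Finset.card_sigma]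
    refine Finset.card_le_card_of_injOn (fun x => (x.2.1, x.2.2, x.1.2)) ?_ ?_
    · rintro ⟨⟨w, q⟩, e⟩ hx
      rw [Finset.mem_coe, Finset.mem_sigma] at hx
      obtain ⟨hp, he⟩ := hx
      obtain ⟨hpW, _⟩ := Finset.mem_filter.1 hp
      obtain ⟨hwW, hqQ⟩ := Finset.mem_product.1 hpW
      have h1 := Sw_sub_Jn (R := R) (hSR (w, q)) he
      have ha := (Finset.mem_filter.1 h1.1).2
      have hb := (Finset.mem_filter.1 h1.2.1).2
      unfold JP at ha hb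
      rw [Finset.mem_filter, Finset.mem_product] at ha hb
      rw [Finset.mem_coe, mem_Tri]
      exact ⟨⟨XX_sub ha.1.1, XX_sub hb.1.1, hqQ⟩, ⟨w, hwW, h1.2.2⟩, hb.2, ha.2⟩
    · rintro ⟨⟨w, q⟩, e⟩ hx ⟨⟨w', q'⟩, e'⟩ hx' heq
      rw [Finset.mem_coe, Finset.mem_sigma] at hx hx'
      simp only [Prod.mk.injEq] at heq
      obtain ⟨h1, h2, h3⟩ := heq
      have he : e = e' := Prod.ext h1 h2
      subst he
      subst h3
      have hw := Sw_sub_Jn (R := R) (hSR (w, q)) hx.2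
      have hw' := Sw_sub_Jn (R := R) (hSR (w', q)) hx'.2
      have hwW := (Finset.mem_product.1 (Finset.mem_filter.1 hx.1).1).1
      have hwW' := (Finset.mem_product.1 (Finset.mem_filter.1 hx'.1).1).1
      have := h.uniq hwW hwW' hw.2.2 hw'.2.2
      simp only at this
      subst this
      rfl
  have h1 : (#G : ℝ) * (#Q : ℝ) ^ 2 ≤ K ^ 260 * lam ^ 2 * #(Tri Q I R W) := by
    have : ∑ _p ∈ G, (#Q : ℝ) ^ 2 ≤
        ∑ p ∈ G, K ^ 260 * lam ^ 2 * #(Sw (SS K lam Q W I R p) (I p.1)) :=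
      Finset.sum_le_sum hlow
    rw [Finset.sum_const, nsmul_eq_mul, ← Finset.mul_sum] at this
    exact this.trans (mul_le_mul_of_nonneg_left hsum (by positivity))
  have h2 : lam ^ 2 * (#Q : ℝ) ^ 3 ≤ lam ^ 2 * (K ^ 302 * #(Tri Q I R W)) := by
    calc lam ^ 2 * (#Q : ℝ) ^ 3 = lam ^ 2 * #Q * (#Q : ℝ) ^ 2 := by ring
      _ ≤ K ^ 42 * #G * (#Q : ℝ) ^ 2 := mul_le_mul_of_nonneg_right hgood (by positivity)
      _ = K ^ 42 * (#G * (#Q : ℝ) ^ 2) := by ring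
      _ ≤ K ^ 42 * (K ^ 260 * lam ^ 2 * #(Tri Q I R W)) :=
          mul_le_mul_of_nonneg_left h1 (by positivity)
      _ = lam ^ 2 * (K ^ 302 * #(Tri Q I R W)) := by ring
  exact le_of_mul_le_mul_left h2 (by positivity)

end

section
variable {Q : Finset Pt} {I : ℕ → Set ℝ} {R : ℕ → Finset Pt}

open Classical in
/-- triangles of `WW` whose first side belongs to `w` -/
noncomputable def U12 (Q : Finset Pt) (I : ℕ → Set ℝ) (R : ℕ → Finset Pt) (WW : Finset ℕ)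
    (w : ℕ) : Finset (Pt × Pt × Pt) := {t ∈ Tri Q I R WW | Jn I R w t.1 t.2.1}

theorem mem_U12 {WW : Finset ℕ} {w : ℕ} {x y z : Pt} : (x, y, z) ∈ U12 Q I R WW w ↔
    (x, y, z) ∈ Tri Q I R WW ∧ Jn I R w x y := by
  classical
  unfold U12
  rw [Finset.mem_filter]

theorem Tri_swap {WW : Finset ℕ} {x y z : Pt} (h : (x, y, z) ∈ Tri Q I R WW) :
    (y, x, z) ∈ Tri Q I R WW := by
  rw [mem_Tri] at h ⊢
  exact ⟨⟨h.1.2.1, h.1.1, h.1.2.2⟩, h.2.1.symm, h.2.2.2, h.2.2.1⟩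

theorem Tri_rot {WW : Finset ℕ} {x y z : Pt} (h : (x, y, z) ∈ Tri Q I R WW) :
    (y, z, x) ∈ Tri Q I R WW := by
  rw [mem_Tri] at h ⊢
  exact ⟨⟨h.1.2.1, h.1.2.2, h.1.1⟩, h.2.2.1, h.2.2.2.symm, h.2.1.symm⟩

theorem prune (W : Finset ℕ) (τ : ℝ) (hW : 3 * τ * #W < #(Tri Q I R W)) :
    ∃ WW : Finset ℕ, WW ⊆ W ∧ WW.Nonempty ∧ ∀ w ∈ WW, τ ≤ #(U12 Q I R WW w) := by
  classical
  obtain ⟨WW, hWW, hmax⟩ := Finset.exists_max_image W.powerset
    (fun V => (#(Tri Q I R V) : ℝ) - 3 * τ * #V) ⟨W, Finset.mem_powerset_self W⟩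
  have hsub := Finset.mem_powerset.1 hWW
  have h1 := hmax W (Finset.mem_powerset_self W)
  refine ⟨WW, hsub, ?_, ?_⟩
  · by_contra hne
    rw [Finset.not_nonempty_iff_eq_empty] at hne
    subst hne
    have h2 : Tri Q I R ∅ = ∅ := by
      rw [Finset.eq_empty_iff_forall_notMem]
      rintro ⟨x, y, z⟩ hx
      obtain ⟨_, ⟨w, hw, _⟩, _⟩ := mem_Tri.1 hx
      exact absurd hw (Finset.notMem_empty _)
    rw [h2] at h1
    simp only [Finset.card_empty, Nat.cast_zero, mul_zero, sub_zero] at h1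
    linarith
  · intro w hw
    have h2 := hmax (WW.erase w) (Finset.mem_powerset.2 ((Finset.erase_subset _ _).trans hsub))
    have hcard : (#(WW.erase w) : ℝ) = #WW - 1 := by
      rw [Finset.card_erase_of_mem hw, Nat.cast_sub (Finset.card_pos.2 ⟨w, hw⟩)]
      simp
    rw [hcard] at h2
    set U := U12 Q I R WW w with hU
    -- the three position sets
    set U23 := (Tri Q I R WW).filter (fun t => Jn I R w t.2.1 t.2.2) with hU23
    set U13 := (Tri Q I R WW).filter (fun t => Jn I R w t.1 t.2.2) with hU13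
    have hcov : Tri Q I R WW ⊆ Tri Q I R (WW.erase w) ∪ U ∪ U23 ∪ U13 := by
      rintro ⟨x, y, z⟩ ht
      by_cases h12 : Jn I R w x y
      · simp only [Finset.mem_union]
        exact Or.inl (Or.inl (Or.inr (mem_U12.2 ⟨ht, h12⟩)))
      by_cases h23 : Jn I R w y z
      · simp only [Finset.mem_union]
        exact Or.inl (Or.inr (Finset.mem_filter.2 ⟨ht, h23⟩))
      by_cases h13 : Jn I R w x z
      · simp only [Finset.mem_union]
        exact Or.inr (Finset.mem_filter.2 ⟨ht, h13⟩)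
      have hJ : ∀ a b : Pt, JJ I R WW a b → ¬ Jn I R w a b → JJ I R (WW.erase w) a b := by
        rintro a b ⟨v, hv, hab⟩ hn
        refine ⟨v, Finset.mem_erase.2 ⟨?_, hv⟩, hab⟩
        rintro rfl
        exact hn hab
      have ht' := mem_Tri.1 ht
      simp only [Finset.mem_union]
      exact Or.inl (Or.inl (Or.inl (mem_Tri.2 ⟨ht'.1, hJ _ _ ht'.2.1 h12, hJ _ _ ht'.2.2.1 h23,
        hJ _ _ ht'.2.2.2 h13⟩)))
    have h23 : #U23 ≤ #U := by
      refine Finset.card_le_card_of_injOn (fun t => (t.2.1, t.2.2, t.1)) ?_ ?_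
      · rintro ⟨x, y, z⟩ ht
        obtain ⟨ht, hj⟩ := Finset.mem_filter.1 (Finset.mem_coe.1 ht)
        exact Finset.mem_coe.2 (mem_U12.2 ⟨Tri_rot ht, hj⟩)
      · rintro ⟨x, y, z⟩ _ ⟨x', y', z'⟩ _ heq
        simp only [Prod.mk.injEq] at heq ⊢
        exact ⟨heq.2.2, heq.1, heq.2.1⟩
    have h13 : #U13 ≤ #U := by
      refine Finset.card_le_card_of_injOn (fun t => (t.1, t.2.2, t.2.1)) ?_ ?_
      · rintro ⟨x, y, z⟩ ht
        obtain ⟨ht, hj⟩ := Finset.mem_filter.1 (Finset.mem_coe.1 ht)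
        exact Finset.mem_coe.2 (mem_U12.2 ⟨Tri_swap (Tri_rot (Tri_rot ht)), hj⟩)
      · rintro ⟨x, y, z⟩ _ ⟨x', y', z'⟩ _ heq
        simp only [Prod.mk.injEq] at heq ⊢
        exact ⟨heq.1, heq.2.2, heq.2.1⟩
    have h3 : #(Tri Q I R WW) ≤ #(Tri Q I R (WW.erase w)) + #U + #U23 + #U13 := by
      refine (Finset.card_le_card hcov).trans ?_
      refine (Finset.card_union_le _ _).trans ?_
      refine Nat.add_le_add_right ?_ _
      refine (Finset.card_union_le _ _).trans ?_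
      exact Nat.add_le_add_right (Finset.card_union_le _ _) _
    have h4 : (#(Tri Q I R WW) : ℝ) ≤ #(Tri Q I R (WW.erase w)) + 3 * #U := by
      have : #(Tri Q I R WW) ≤ #(Tri Q I R (WW.erase w)) + 3 * #U := by omega
      exact_mod_cast this
    nlinarith

end

theorem pow_help {K : ℝ} (hK : 2 ≤ K) {n m : ℕ} (h : n + 2 ≤ m) : 4 * K ^ n ≤ K ^ m := by
  have hK1 : (1 : ℝ) ≤ K := by linarith
  have h1 : K ^ (n + 2) ≤ K ^ m := pow_le_pow_right₀ hK1 h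
  have h2 : 4 * K ^ n ≤ K ^ (n + 2) := by
    rw [pow_add, mul_comm]
    refine mul_le_mul_of_nonneg_left ?_ (by positivity)
    nlinarith
  exact h2.trans h1

open Classical in
theorem centre_choice (A : Finset (Pt × Pt × Pt)) (Rw : Finset Pt) (s b : ℝ) (hb : 0 < b)
    (hs : 0 < s) (hA : ∀ t ∈ A, t.1 ∈ Rw) (hR : (#Rw : ℝ) ≤ b) (hsA : s ≤ #A) :
    ∃ c ∈ Rw, s / b ≤ #(A.filter (fun t => t.1 = c)) := by
  by_contra hno
  push Not at hno
  have h1 : #A = ∑ c ∈ Rw, #(A.filter (fun t => t.1 = c)) :=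
    Finset.card_eq_sum_card_fiberwise (fun t ht => Finset.mem_coe.2 (hA t (Finset.mem_coe.1 ht)))
  have hR0 : Rw.Nonempty := by
    have : (0 : ℝ) < #A := lt_of_lt_of_le hs hsA
    have : 0 < #A := by exact_mod_cast this
    obtain ⟨t, ht⟩ := Finset.card_pos.1 this
    exact ⟨t.1, hA t ht⟩
  have h2 : (#A : ℝ) < ∑ _c ∈ Rw, s / b := by
    rw [h1]
    push_cast
    exact Finset.sum_lt_sum_of_nonempty hR0 (fun c hc => hno c hc)
  rw [Finset.sum_const, nsmul_eq_mul] at h2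
  have h3 : (#Rw : ℝ) * (s / b) ≤ b * (s / b) :=
    mul_le_mul_of_nonneg_right hR (by positivity)
  have h4 : b * (s / b) = s := by field_simp
  linarith

open Classical in
theorem sym_choice (G : Finset (Pt × Pt × Pt)) (P : Pt × Pt × Pt → Prop)
    (hswap : ∀ x y z : Pt, (x, y, z) ∈ G → (y, x, z) ∈ G)
    (hP : ∀ x y z : Pt, ¬ P (x, y, z) → P (y, x, z)) : (#G : ℝ) ≤ 2 * #(G.filter P) := by
  have h1 : #(G.filter (fun t => ¬ P t)) ≤ #(G.filter P) := by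
    refine Finset.card_le_card_of_injOn (fun t => (t.2.1, t.1, t.2.2)) ?_ ?_
    · rintro ⟨x, y, z⟩ ht
      obtain ⟨ht, hn⟩ := Finset.mem_filter.1 (Finset.mem_coe.1 ht)
      exact Finset.mem_coe.2 (Finset.mem_filter.2 ⟨hswap _ _ _ ht, hP _ _ _ hn⟩)
    · rintro ⟨x, y, z⟩ _ ⟨x', y', z'⟩ _ heq
      simp only [Prod.mk.injEq] at heq ⊢
      exact ⟨heq.2.1, heq.1, heq.2.2⟩
  have h2 : #(G.filter P) + #(G.filter (fun t => ¬ P t)) = #G :=
    Finset.card_filter_add_card_filter_not _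
  have : #G ≤ 2 * #(G.filter P) := by omega
  exact_mod_cast this

open Classical in
/-- triangles with a second or third side in a bad window are few -/
theorem JView.bad_few {K lam : ℝ} {Q : Finset Pt} {W : Finset ℕ} {I : ℕ → Set ℝ}
    {R : ℕ → Finset Pt} (h : JView K lam Q W I R) {w0 : ℕ} (hw0 : w0 ∈ W) (Bw : Finset ℕ)
    (hBw : Bw ⊆ W) (hBcard : (#Bw : ℝ) ≤ K) (B : Finset (Pt × Pt × Pt))
    (hB : ∀ t ∈ B, t.1 ∈ R w0 ∧ t.2.1 ∈ R w0 ∧ ∃ w ∈ Bw, t.2.2 ∈ R w) :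
    (#B : ℝ) ≤ K * (K * #Q / lam) ^ 3 := by
  have hK := h.two
  have hl := h.one
  have hl0 : (0 : ℝ) < lam := by linarith
  have hK0 : (0 : ℝ) < K := by linarith
  have hRb : ∀ w ∈ W, (#(R w) : ℝ) ≤ K * #Q / lam := by
    intro w hw
    rw [le_div_iff₀ hl0]
    have := h.cardR w hw
    linarith
  have hprod : ∀ w ∈ Bw, (#(R w0 ×ˢ R w0 ×ˢ R w) : ℝ) ≤ (K * #Q / lam) ^ 3 := by
    intro w hw
    rw [Finset.card_product, Finset.card_product]
    push_cast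
    have h1 := hRb w0 hw0
    have h2 := hRb w (hBw hw)
    have h3 : (#(R w0) : ℝ) * #(R w) ≤ (K * #Q / lam) * (K * #Q / lam) :=
      mul_le_mul h1 h2 (by positivity) (by positivity)
    calc (#(R w0) : ℝ) * (#(R w0) * #(R w)) ≤
          (K * #Q / lam) * ((K * #Q / lam) * (K * #Q / lam)) :=
          mul_le_mul h1 h3 (by positivity) (by positivity)
      _ = _ := by ring
  have hsub : B ⊆ Bw.biUnion fun w => R w0 ×ˢ R w0 ×ˢ R w := by
    rintro ⟨x, y, z⟩ ht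
    obtain ⟨h1, h2, w, hw, h3⟩ := hB _ ht
    rw [Finset.mem_biUnion]
    exact ⟨w, hw, Finset.mem_product.2 ⟨h1, Finset.mem_product.2 ⟨h2, h3⟩⟩⟩
  have h1 : #B ≤ ∑ w ∈ Bw, #(R w0 ×ˢ R w0 ×ˢ R w) :=
    (Finset.card_le_card hsub).trans Finset.card_biUnion_le
  calc (#B : ℝ) ≤ ∑ w ∈ Bw, (#(R w0 ×ˢ R w0 ×ˢ R w) : ℝ) := by exact_mod_cast h1
    _ ≤ ∑ _w ∈ Bw, (K * #Q / lam) ^ 3 := Finset.sum_le_sum hprod
    _ = #Bw * (K * #Q / lam) ^ 3 := by rw [Finset.sum_const, nsmul_eq_mul]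
    _ ≤ K * (K * #Q / lam) ^ 3 := mul_le_mul_of_nonneg_right hBcard (by positivity)

theorem centre_num {K lam N : ℝ} (hK : 2 ≤ K) (hl0 : 0 < lam) (hN : 0 < N)
    (hbig : K ^ 400 ≤ lam) :
    2 * (K * (K * N / lam) ^ 3) ≤ N ^ 3 / (lam ^ 2 * K ^ 306) / 2 := by
  have hK0 : (0 : ℝ) < K := by linarith
  have h1 : K * (K * N / lam) ^ 3 = K ^ 4 * N ^ 3 / lam ^ 3 := by
    field_simp
  rw [h1, le_div_iff₀ (by norm_num), ← mul_div_assoc, div_mul_eq_mul_div,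
    div_le_div_iff₀ (by positivity) (by positivity)]
  have h2 : 4 * K ^ 310 ≤ lam := (pow_help hK (by norm_num)).trans hbig
  have h3 : 0 < N ^ 3 * lam ^ 2 := by positivity
  calc 2 * (K ^ 4 * N ^ 3) * 2 * (lam ^ 2 * K ^ 306) = (4 * K ^ 310) * (N ^ 3 * lam ^ 2) := by ring
    _ ≤ lam * (N ^ 3 * lam ^ 2) := mul_le_mul_of_nonneg_right h2 h3.le
    _ = N ^ 3 * lam ^ 3 := by ring

theorem centre_num2 {K lam N T : ℝ} (hK : 2 ≤ K) (hl0 : 0 < lam) (hN : 0 < N)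
    (hT : N ^ 3 ≤ K ^ 302 * T) {W : ℝ} (hW : W ≤ K * lam ^ 2) :
    3 * (N ^ 3 / (lam ^ 2 * K ^ 306)) * W < T := by
  have hK0 : (0 : ℝ) < K := by linarith
  have h1 : 3 * (N ^ 3 / (lam ^ 2 * K ^ 306)) * W ≤
      3 * (N ^ 3 / (lam ^ 2 * K ^ 306)) * (K * lam ^ 2) :=
    mul_le_mul_of_nonneg_left hW (by positivity)
  have h2 : 3 * (N ^ 3 / (lam ^ 2 * K ^ 306)) * (K * lam ^ 2) = 3 * (N ^ 3 / K ^ 305) := by
    field_simp
  have h3 : N ^ 3 / K ^ 302 ≤ T := by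
    rw [div_le_iff₀ (by positivity)]; linarith
  have h4 : 3 * (N ^ 3 / K ^ 305) < N ^ 3 / K ^ 302 := by
    rw [← mul_div_assoc, div_lt_div_iff₀ (by positivity) (by positivity)]
    have h5 : 4 * K ^ 302 ≤ K ^ 305 := pow_help hK (by norm_num)
    have h6 : 0 < N ^ 3 * K ^ 302 := by positivity
    have h7 : N ^ 3 * (4 * K ^ 302) ≤ N ^ 3 * K ^ 305 :=
      mul_le_mul_of_nonneg_left h5 (by positivity)
    linarith
  linarith

open Classical in
theorem stCentre : StCentre := by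
  refine ⟨400, ?_⟩
  intro K lam Q W I R h hbig hQ g m0 bad hbad
  have hK := h.two
  have hl := h.one
  have hK0 : (0 : ℝ) < K := by linarith
  have hK1 : (1 : ℝ) ≤ K := by linarith
  have hl0 : (0 : ℝ) < lam := by linarith
  have hQ0 : (0 : ℝ) < #Q := lt_of_lt_of_le (by positivity) hQ
  have htri := h.tri_low hQ ((pow_le_pow_right₀ hK1 (by norm_num)).trans hbig)
  obtain ⟨N, hN⟩ : ∃ N : ℝ, N = (#Q : ℝ) := ⟨_, rfl⟩
  obtain ⟨τ, hτ⟩ : ∃ τ : ℝ, τ = (#Q : ℝ) ^ 3 / (lam ^ 2 * K ^ 306) := ⟨_, rfl⟩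
  have hτ0 : 0 < τ := by rw [hτ]; positivity
  have hpr : 3 * τ * #W < #(Tri Q I R W) := by
    rw [hτ]
    exact centre_num2 hK hl0 hQ0 htri h.cardW
  obtain ⟨WW, hWW, hne, hU⟩ := prune W τ hpr
  obtain ⟨w0, hw0, hmin⟩ := Finset.exists_min_image WW g hne
  have hw0W := hWW hw0
  have hVτ : τ ≤ #(U12 Q I R WW w0) := hU w0 hw0
  obtain ⟨V, hV⟩ : ∃ V, V = U12 Q I R WW w0 := ⟨_, rfl⟩
  rw [← hV] at hVτ
  obtain ⟨Bw, hBw⟩ : ∃ Bw, Bw = (bad w0) ∩ W := ⟨_, rfl⟩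
  have hBwW : Bw ⊆ W := hBw ▸ Finset.inter_subset_right
  have hBcard : (#Bw : ℝ) ≤ K := by
    refine le_trans ?_ (hbad w0 hw0W)
    rw [hBw]
    exact_mod_cast Finset.card_le_card Finset.inter_subset_left
  obtain ⟨B, hB⟩ : ∃ B, B = V.filter (fun t => ∃ w ∈ Bw, Jn I R w t.2.1 t.2.2 ∨
      Jn I R w t.1 t.2.2) := ⟨_, rfl⟩
  have hBc : (#B : ℝ) ≤ K * (K * #Q / lam) ^ 3 := by
    refine h.bad_few hw0W Bw hBwW hBcard B ?_
    rintro ⟨x, y, z⟩ ht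
    rw [hB] at ht
    obtain ⟨ht, w, hw, hj⟩ := Finset.mem_filter.1 ht
    rw [hV] at ht
    have h1 := (mem_U12.1 ht).2
    refine ⟨h1.1, h1.2.1, w, hw, ?_⟩
    rcases hj with hj | hj <;> exact hj.2.1
  have hbadτ := centre_num hK hl0 hQ0 hbig
  rw [← hτ] at hbadτ
  obtain ⟨G, hG⟩ : ∃ G, G = V \ B := ⟨_, rfl⟩
  have hGc : τ / 2 ≤ #G := by
    have h1 : #V ≤ #G + #B := by
      have := Finset.card_sdiff_add_card V B
      have h2 : #V ≤ #(V ∪ B) := Finset.card_le_card Finset.subset_union_left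
      rw [hG]
      omega
    have h3 : (#V : ℝ) ≤ #G + #B := by exact_mod_cast h1
    have h4 : (0 : ℝ) ≤ K * (K * #Q / lam) ^ 3 := by positivity
    linarith
  have hGswap : ∀ x y z : Pt, (x, y, z) ∈ G → (y, x, z) ∈ G := by
    intro x y z ht
    rw [hG, Finset.mem_sdiff, hV] at ht ⊢
    obtain ⟨ht, hn1⟩ := ht
    have h1 := mem_U12.1 ht
    refine ⟨mem_U12.2 ⟨Tri_swap h1.1, h1.2.symm⟩, ?_⟩
    intro h3
    rw [hB] at h3
    obtain ⟨_, w, hw, hj⟩ := Finset.mem_filter.1 h3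
    refine hn1 ?_
    rw [hB]
    exact Finset.mem_filter.2 ⟨hV ▸ ht, w, hw, hj.symm⟩
  obtain ⟨A, hA⟩ : ∃ A, A = G.filter (fun t => |sl t.2.1 t.2.2 - m0 w0| ≤
      |sl t.1 t.2.2 - m0 w0|) := ⟨_, rfl⟩
  have hAc : τ / 4 ≤ #A := by
    have h1 := sym_choice G (fun t => |sl t.2.1 t.2.2 - m0 w0| ≤ |sl t.1 t.2.2 - m0 w0|) hGswap
      (fun x y z hn => (not_le.1 hn).le)
    rw [← hA] at h1
    linarith
  have hAR : ∀ t ∈ A, t.1 ∈ R w0 := by
    rintro ⟨x, y, z⟩ ht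
    rw [hA] at ht
    have h2 := (Finset.mem_filter.1 ht).1
    rw [hG] at h2
    have h3 := (Finset.mem_sdiff.1 h2).1
    rw [hV] at h3
    exact (mem_U12.1 h3).2.1
  have hRw0 : (#(R w0) : ℝ) ≤ K * #Q / lam := by
    rw [le_div_iff₀ hl0]
    have := h.cardR w0 hw0W
    linarith
  obtain ⟨c, hc, hfib⟩ := centre_choice A (R w0) (τ / 4) (K * #Q / lam) (by positivity)
    (by positivity) hAR hRw0 hAc
  refine ⟨w0, hw0W, c, hc, (A.filter (fun t => t.1 = c)).image (fun t => t.2), ?_, ?_⟩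
  · have h1 : #((A.filter (fun t => t.1 = c)).image (fun t => t.2)) =
        #(A.filter (fun t => t.1 = c)) := by
      refine Finset.card_image_of_injOn ?_
      rintro ⟨x, y, z⟩ hx ⟨x', y', z'⟩ hx' heq
      have h2 := (Finset.mem_filter.1 (Finset.mem_coe.1 hx)).2
      have h3 := (Finset.mem_filter.1 (Finset.mem_coe.1 hx')).2
      simp only [Prod.mk.injEq] at heq h2 h3 ⊢
      exact ⟨h2.trans h3.symm, heq.1, heq.2⟩
    rw [h1]
    have h2 : τ / 4 / (K * #Q / lam) = (#Q : ℝ) ^ 2 / (4 * K ^ 307 * lam) := by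
      rw [hτ]; field_simp
    rw [h2, div_le_iff₀ (by positivity)] at hfib
    refine hfib.trans ?_
    have h3 : 4 * K ^ 307 ≤ K ^ 400 := pow_help hK (by norm_num)
    have h4 : (0 : ℝ) ≤ lam * #(A.filter (fun t => t.1 = c)) := by positivity
    calc (#(A.filter (fun t => t.1 = c)) : ℝ) * (4 * K ^ 307 * lam)
        = 4 * K ^ 307 * (lam * #(A.filter (fun t => t.1 = c))) := by ring
      _ ≤ K ^ 400 * (lam * #(A.filter (fun t => t.1 = c))) := mul_le_mul_of_nonneg_right h3 h4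
      _ = _ := by ring
  · intro e he
    obtain ⟨⟨x, y, z⟩, ht, rfl⟩ := Finset.mem_image.1 he
    obtain ⟨htA, hxc⟩ := Finset.mem_filter.1 ht
    simp only at hxc
    subst hxc
    rw [hA] at htA
    obtain ⟨htG, hm⟩ := Finset.mem_filter.1 htA
    rw [hG, Finset.mem_sdiff] at htG
    obtain ⟨htV, hn⟩ := htG
    rw [hV] at htV
    obtain ⟨htT, hj0⟩ := mem_U12.1 htV
    obtain ⟨⟨hxQ, hyQ, hzQ⟩, _, ⟨w1, hw1, hj1⟩, ⟨w2, hw2, hj2⟩⟩ := mem_Tri.1 htT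
    refine ⟨hzQ, hj0, hm, ⟨w1, hWW hw1, ?_, hmin w1 hw1, hj1⟩, ⟨w2, hWW hw2, ?_, hmin w2 hw2, hj2⟩⟩
    · intro hb
      refine hn ?_
      rw [hB]
      exact Finset.mem_filter.2 ⟨hV ▸ htV, w1, hBw ▸ Finset.mem_inter.2 ⟨hb, hWW hw1⟩, Or.inl hj1⟩
    · intro hb
      refine hn ?_
      rw [hB]
      exact Finset.mem_filter.2 ⟨hV ▸ htV, w2, hBw ▸ Finset.mem_inter.2 ⟨hb, hWW hw2⟩, Or.inr hj2⟩

end Vale.Agent.P065.H183
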