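import Vale.Agent.P065.UB.WLov

/-!
# P065, upper bound: the view structure and the sub-plane theorem (helper183): definitions

`Q` is a finite set of points, `I w` are disjoint intervals of slopes (windows), `T w` the touched
points of the window `w` which are heavy (vantage points), `R w` its rich points.
All exact Props of block [SUB] / [FATPTS].
-/

set_option autoImplicit false

namespace Vale.Agent.P065.H183

open Finset Vale.Agent.P065.UB Vale.Agent.P065.UB.RankAux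

open Classical in
/-- the structure produced from `OUT1`: vantage points see rich points, and **(STAR)** for every
intersection of half-planes. -/
structure View (K lam : ℝ) (Q : Finset Pt) (W : Finset ℕ) (I : ℕ → Set ℝ)
    (T R : ℕ → Finset Pt) : Prop where
  two : 2 ≤ K
  one : 1 ≤ lam
  xinj : ∀ p ∈ Q, ∀ q ∈ Q, p.1 = q.1 → p = q
  conn : ∀ w ∈ W, (I w).OrdConnected
  disj : ∀ w ∈ W, ∀ w' ∈ W, w ≠ w' → Disjoint (I w) (I w')
  cardW : (#W : ℝ) ≤ K * lam ^ 2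
  cardW' : lam ^ 2 ≤ K * #W
  subT : ∀ w ∈ W, T w ⊆ Q
  subR : ∀ w ∈ W, R w ⊆ T w
  cardT : ∀ w ∈ W, lam * #(T w) ≤ K * #Q
  cardR : ∀ w ∈ W, (#Q : ℝ) ≤ K * lam * #(R w)
  /-- a point is a vantage point of few windows -/
  touch : ∀ p ∈ Q, (#{w ∈ W | p ∈ T w} : ℝ) ≤ K * lam
  /-- few pairs (point, vantage point) have slope in `I w` -/
  pairs : ∀ w ∈ W, lam ^ 2 * #{e ∈ Q ×ˢ T w | sl e.2 e.1 ∈ I w} ≤ K * (#Q : ℝ) ^ 2
  /-- a rich point is seen by many vantage points of its window -/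
  see : ∀ w ∈ W, ∀ x ∈ R w, (#Q : ℝ) ≤ K * lam * #{p ∈ T w | sl p x ∈ I w}
  /-- **(STAR)** -/
  star : ∀ (S : Finset ℕ) (H : ℕ → Set Pt), (∀ i ∈ S, IsHalf (H i)) → ∀ Z : Finset Pt,
    (∀ z, z ∈ Z ↔ z ∈ Q ∧ ∀ i ∈ S, z ∈ H i) →
    lam * ∑ w ∈ W, (#(R w ∩ Z) : ℝ) ^ 3 ≤
      K * (#S + 1 : ℝ) ^ 3 * (#Q * (#Z : ℝ) ^ 2 + lam * (#Q : ℝ) ^ 2)

open Classical in
/-- **SUB-PLANE THEOREM** (needed for the mixed threshold): a sub-plane has a positive proportion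
of the points. -/
def StSub : Prop :=
  ∃ C : ℕ, ∀ (K lam : ℝ) (Q : Finset Pt) (W : Finset ℕ) (I : ℕ → Set ℝ) (T R : ℕ → Finset Pt),
    View K lam Q W I T R → Real.logb 2 #Q ≤ K → K ^ C ≤ lam → lam ^ 5 ≤ #Q →
    ∀ (W' : Finset ℕ) (X : Finset Pt) (R' : ℕ → Finset Pt), W' ⊆ W → W'.Nonempty →
      (∀ w ∈ W', R' w ⊆ R w) → (∀ w ∈ W', R' w ⊆ X) → X ⊆ Q →
      (∀ w ∈ W', (#Q : ℝ) ≤ K * lam * #(R' w)) →
      (∀ x ∈ X, lam ≤ K * #{w ∈ W' | x ∈ R' w}) →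
      (#Q : ℝ) ≤ K ^ C * #X

open Classical in
/-- **FACES**: `n` half-planes cut a finite set into at most `1 + n + n ^ 2` classes
(Sauer-Shelah, dual VC dimension 2). -/
def StFaces : Prop :=
  ∀ (n : ℕ) (H : Fin n → Set Pt), (∀ i, IsHalf (H i)) → ∀ Q : Finset Pt,
    #(Q.image fun z => ({i | z ∈ H i} : Finset (Fin n))) ≤ 1 + n + n ^ 2

open Classical in
/-- the label of `z` in the pencil of `p` with thresholds `Cs` -/
noncomputable def lab (Cs : Finset ℝ) (p z : Pt) : Prop × Prop × Finset ℝ :=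
  (z.1 < p.1, p.1 < z.1, {c ∈ Cs | c < sl p z})

open Classical in
/-- the cell of `x` in `Q` for a list of pencils -/
noncomputable def cell (Q : Finset Pt) (Cs : Pt → Finset ℝ) (ps : List Pt) (x : Pt) : Finset Pt :=
  {z ∈ Q | ∀ p ∈ ps, lab (Cs p) p z = lab (Cs p) p x}

open Classical in
/-- **THR**: thresholds at a point `p` for a finite set `V` of windows -/
def StThr : Prop :=
  ∀ (Q : Finset Pt) (V : Finset ℕ) (I : ℕ → Set ℝ), (∀ w ∈ V, (I w).OrdConnected) → ∀ p : Pt,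
    ∃ Cs : Finset ℝ, #Cs ≤ 2 * #V ∧ (∀ z ∈ Q, sl p z ∉ Cs) ∧
      ∀ w ∈ V, ∀ z ∈ Q, ∀ z' ∈ Q,
        ({c ∈ Cs | c < sl p z} : Finset ℝ) = {c ∈ Cs | c < sl p z'} →
        (sl p z ∈ I w ↔ sl p z' ∈ I w)

open Classical in
/-- **CONV**: a cell is cut out by at most `3 * ps.length` half-planes -/
def StConv : Prop :=
  ∀ (Q : Finset Pt) (Cs : Pt → Finset ℝ) (ps : List Pt) (x : Pt), x ∈ Q →
    (∀ p ∈ Q, ∀ q ∈ Q, p.1 = q.1 → p = q) → (∀ p ∈ ps, p ∈ Q) →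
    ∃ (S : Finset ℕ) (H : ℕ → Set Pt), #S ≤ 3 * ps.length ∧ (∀ i ∈ S, IsHalf (H i)) ∧
      ∀ z, z ∈ cell Q Cs ps x ↔ z ∈ Q ∧ ∀ i ∈ S, z ∈ H i

open Classical in
/-- **NUM**: number of cells, from FACES -/
def StNum : Prop :=
  ∀ (Q : Finset Pt) (Cs : Pt → Finset ℝ) (ps : List Pt) (D : ℕ),
    (∀ p ∈ Q, ∀ q ∈ Q, p.1 = q.1 → p = q) → (∀ p ∈ ps, p ∈ Q) →
    (∀ p ∈ ps, ∀ z ∈ Q, z ≠ p → sl p z ∉ Cs p) → (∀ p ∈ ps, #(Cs p) ≤ D) →
    #(Q.image fun x => cell Q Cs ps x) ≤ (1 + ps.length * (D + 2)) ^ 2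

open Classical in
/-- **STABLE** (abstract): after few pencils of a family, one more pencil halves the cell of a point
only with small probability. -/
def StStable : Prop :=
  ∀ {α β γ : Type} (Q X : Finset α) (P : Finset β) (lb : β → α → γ) (Rr : ℕ),
    X ⊆ Q → 1 ≤ Rr → X.Nonempty → P.Nonempty →
    ∃ ps : List β, ps.length < Rr ∧ (∀ p ∈ ps, p ∈ P) ∧
      (Rr : ℝ) * #{e ∈ X ×ˢ P | 2 * #{z ∈ Q | (∀ p ∈ ps, lb p z = lb p e.1) ∧ lb e.2 z = lb e.2 e.1}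
          < #{z ∈ Q | ∀ p ∈ ps, lb p z = lb p e.1}} ≤ #X * #P * Real.logb 2 #Q

end Vale.Agent.P065.H183
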