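import Vale.Agent.P065.UB.WLov

/-!
# P065, upper bound: the structure `JView` and the Prop [CENTRE] (helper183)

`Q` points, `I w` disjoint intervals of slopes (windows), `R w` the rich points of the window.
`join` is helper334's vertex-cover form of helper537's JOIN, `star` is (STAR).
-/

set_option autoImplicit false

namespace Vale.Agent.P065.H183

open Finset Vale.Agent.P065.UB Vale.Agent.P065.UB.RankAux

open Classical in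
/-- points, windows, rich points: everything point level and scale free -/
structure JView (K lam : ℝ) (Q : Finset Pt) (W : Finset ℕ) (I : ℕ → Set ℝ)
    (R : ℕ → Finset Pt) : Prop where
  two : 2 ≤ K
  one : 1 ≤ lam
  xinj : ∀ p ∈ Q, ∀ q ∈ Q, p.1 = q.1 → p = q
  conn : ∀ w ∈ W, (I w).OrdConnected
  disj : ∀ w ∈ W, ∀ w' ∈ W, w ≠ w' → Disjoint (I w) (I w')
  cardW : (#W : ℝ) ≤ K * lam ^ 2
  cardW' : lam ^ 2 ≤ K * #W
  subR : ∀ w ∈ W, R w ⊆ Q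
  cardR : ∀ w ∈ W, lam * #(R w) ≤ K * #Q
  cardR' : ∀ w ∈ W, (#Q : ℝ) ≤ K * lam * #(R w)
  touch : ∀ x ∈ Q, (#{w ∈ W | x ∈ R w} : ℝ) ≤ K * lam
  /-- JOIN: dense subsets of the rich points of a window contain many pairs with slope in `I w` -/
  join : ∀ w ∈ W, ∀ M : Finset Pt, M ⊆ R w →
    lam ^ 4 * (#M : ℝ) ^ 6 ≤ K * (#Q : ℝ) ^ 4 * (#(Sw M (I w)) + 1)
  /-- **(STAR)** -/
  star : ∀ (S : Finset ℕ) (H : ℕ → Set Pt), (∀ i ∈ S, IsHalf (H i)) → ∀ Z : Finset Pt,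
    (∀ z, z ∈ Z ↔ z ∈ Q ∧ ∀ i ∈ S, z ∈ H i) →
    lam * ∑ w ∈ W, (#(R w ∩ Z) : ℝ) ^ 3 ≤
      K * (#S + 1 : ℝ) ^ 3 * (#Q * (#Z : ℝ) ^ 2 + lam * (#Q : ℝ) ^ 2)

/-- `x` and `y` are rich points of the window `w` and their slope is in `I w` -/
def Jn (I : ℕ → Set ℝ) (R : ℕ → Finset Pt) (w : ℕ) (x y : Pt) : Prop :=
  x ∈ R w ∧ y ∈ R w ∧ x.1 ≠ y.1 ∧ sl x y ∈ I w

/-- **[CENTRE]**: triangles, two-role pruning, `w0 = argmin g`, star centre `c`.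
`g` = any size function of the windows (e.g. the length of `I w`), `m0 w` = a reference slope,
`bad w` = few windows to be avoided (e.g. neighbours of `w`). -/
def StCentre : Prop :=
  ∃ C : ℕ, ∀ (K lam : ℝ) (Q : Finset Pt) (W : Finset ℕ) (I : ℕ → Set ℝ) (R : ℕ → Finset Pt),
    JView K lam Q W I R → K ^ C ≤ lam → lam ^ 2 ≤ #Q →
    ∀ (g m0 : ℕ → ℝ) (bad : ℕ → Finset ℕ), (∀ w ∈ W, (#(bad w) : ℝ) ≤ K) →
    ∃ w0 ∈ W, ∃ c ∈ R w0, ∃ Pr : Finset (Pt × Pt), (#Q : ℝ) ^ 2 ≤ K ^ C * lam * #Pr ∧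
      ∀ e ∈ Pr, e.2 ∈ Q ∧ Jn I R w0 c e.1 ∧ |sl e.1 e.2 - m0 w0| ≤ |sl c e.2 - m0 w0| ∧
        (∃ w ∈ W, w ∉ bad w0 ∧ g w0 ≤ g w ∧ Jn I R w e.1 e.2) ∧
        (∃ w ∈ W, w ∉ bad w0 ∧ g w0 ≤ g w ∧ Jn I R w c e.2)

end Vale.Agent.P065.H183
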