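import Vale.Agent.P065.H989.PolesDefs

/-!
# P065, upper bound, MACH2: the fields `pij`, `pik`, `pjk` and `mass` of 240's `Sys` from 989's
`Poles` (helper183)
-/

set_option autoImplicit false

namespace Vale.Agent.P065.H183

open Finset Vale.Agent.P065.UB Vale.Agent.P065.UB.RankAux Vale.Agent.P065.H989
open Vale.Agent.P065.UB.H415

variable {K lam : ℝ} {Q : Finset Pt} {W : Finset ℕ} {I : ℕ → Set ℝ} {R : ℕ → Finset Pt}
  {c : Pt} {w0 : ℕ} {m0 : ℝ} {Pr : Finset (Pt × Pt)} {Wd : Pt × Pt → ℕ} {o1 o2 o3 : Pt}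
  {F : Finset (Pt × Pt)}

theorem le_mu {x k l q : ℝ} (hl : 0 < l) (h : l ^ 2 * x ≤ k * q) : x ≤ k * (q / l ^ 2) := by
  rw [← mul_div_assoc, le_div_iff₀ (by positivity)]
  linarith

open Classical in
/-- two labels of the classes `o1`, `o2` -/
theorem Poles.pij (h : Poles K lam Q W I R c w0 m0 Pr Wd o1 o2 o3 F) (hl : 0 < lam) (s t : ℕ) :
    (#{B ∈ F.image Prod.snd | Wd (o1, B) = s ∧ Wd (o2, B) = t} : ℝ) ≤ K * (#Q / lam ^ 2) := by
  rcases ({B ∈ F.image Prod.snd | Wd (o1, B) = s ∧ Wd (o2, B) = t}).eq_empty_or_nonempty with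
    h0 | ⟨B0, hB0⟩
  · rw [h0, card_empty, Nat.cast_zero]
    have := h.two
    positivity
  · obtain ⟨h1, h2, h3⟩ := mem_filter.1 hB0
    obtain ⟨e, he, rfl⟩ := mem_image.1 h1
    refine le_mu hl (le_trans ?_ (h.p12 e he))
    refine mul_le_mul_of_nonneg_left ?_ (by positivity)
    norm_cast
    refine card_le_card fun B hB => ?_
    obtain ⟨g1, g2, g3⟩ := mem_filter.1 hB
    obtain ⟨f, hf, rfl⟩ := mem_image.1 g1
    rw [mem_filter]
    exact ⟨h.cher.mem2 f (h.sub hf), h.e1 f hf, h.e2 f hf, g2.trans h2.symm, g3.trans h3.symm⟩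

open Classical in
/-- labels of the classes `o1`, `a` -/
theorem Poles.pik (h : Poles K lam Q W I R c w0 m0 Pr Wd o1 o2 o3 F) (hl : 0 < lam) (a : Pt)
    (s t : ℕ) : (#{B ∈ {q ∈ F.image Prod.snd | (a, q) ∈ F} | Wd (o1, B) = s ∧ Wd (a, B) = t} : ℝ) ≤
      K * (#Q / lam ^ 2) := by
  rcases ({B ∈ {q ∈ F.image Prod.snd | (a, q) ∈ F} | Wd (o1, B) = s ∧
    Wd (a, B) = t}).eq_empty_or_nonempty with h0 | ⟨B0, hB0⟩
  · rw [h0, card_empty, Nat.cast_zero]
    have := h.two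
    positivity
  · obtain ⟨h1, h2, h3⟩ := mem_filter.1 hB0
    obtain ⟨_, h1⟩ := mem_filter.1 h1
    refine le_mu hl (le_trans ?_ (h.p1a (a, B0) h1))
    refine mul_le_mul_of_nonneg_left ?_ (by positivity)
    norm_cast
    refine card_le_card fun B hB => ?_
    obtain ⟨g1, g2, g3⟩ := mem_filter.1 hB
    obtain ⟨_, g1⟩ := mem_filter.1 g1
    rw [mem_filter]
    exact ⟨h.cher.mem2 _ (h.sub g1), h.e1 _ g1, h.sub g1, g2.trans h2.symm, g3.trans h3.symm⟩

open Classical in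
/-- labels of the classes `o2`, `a` -/
theorem Poles.pjk (h : Poles K lam Q W I R c w0 m0 Pr Wd o1 o2 o3 F) (hl : 0 < lam) (a : Pt)
    (s t : ℕ) : (#{B ∈ {q ∈ F.image Prod.snd | (a, q) ∈ F} | Wd (o2, B) = s ∧ Wd (a, B) = t} : ℝ) ≤
      K * (#Q / lam ^ 2) := by
  rcases ({B ∈ {q ∈ F.image Prod.snd | (a, q) ∈ F} | Wd (o2, B) = s ∧
    Wd (a, B) = t}).eq_empty_or_nonempty with h0 | ⟨B0, hB0⟩
  · rw [h0, card_empty, Nat.cast_zero]
    have := h.two
    positivity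
  · obtain ⟨h1, h2, h3⟩ := mem_filter.1 hB0
    obtain ⟨_, h1⟩ := mem_filter.1 h1
    refine le_mu hl (le_trans ?_ (h.p2a (a, B0) h1))
    refine mul_le_mul_of_nonneg_left ?_ (by positivity)
    norm_cast
    refine card_le_card fun B hB => ?_
    obtain ⟨g1, g2, g3⟩ := mem_filter.1 hB
    obtain ⟨_, g1⟩ := mem_filter.1 g1
    rw [mem_filter]
    exact ⟨h.cher.mem2 _ (h.sub g1), h.e2 _ g1, h.sub g1, g2.trans h2.symm, g3.trans h3.symm⟩

open Classical in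
/-- the pairs, counted by apexes -/
theorem sum_fib (F : Finset (Pt × Pt)) :
    ∑ a ∈ F.image Prod.fst, #{q ∈ F.image Prod.snd | (a, q) ∈ F} = #F := by
  rw [card_eq_sum_card_fiberwise (f := Prod.fst) (s := F) (t := F.image Prod.fst)
    (fun e he => mem_image_of_mem _ he)]
  refine sum_congr rfl fun a _ => ?_
  refine card_bij (fun q _ => (a, q)) ?_ ?_ ?_
  · intro q hq
    exact mem_filter.2 ⟨(mem_filter.1 hq).2, rfl⟩
  · intro q _ q' _ hqq
    exact (Prod.ext_iff.1 hqq).2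
  · rintro ⟨b, q⟩ hb
    obtain ⟨h1, h2⟩ := mem_filter.1 hb
    simp only at h2
    subst h2
    exact ⟨q, mem_filter.2 ⟨mem_image_of_mem _ h1, h1⟩, rfl⟩

open Classical in
/-- the field `mass` -/
theorem Poles.mass (h : Poles K lam Q W I R c w0 m0 Pr Wd o1 o2 o3 F) (hl : 0 < lam)
    (hQ : (0 : ℝ) < #Q) : lam ^ 2 * (#Q / lam ^ 2) * #(F.image Prod.fst) ≤
      K ^ 2 * ∑ a ∈ F.image Prod.fst, (#{q ∈ F.image Prod.snd | (a, q) ∈ F} : ℝ) := by
  have hK := h.two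
  have e1 : lam ^ 2 * (#Q / lam ^ 2 : ℝ) = #Q := by field_simp
  have e2 : ∑ a ∈ F.image Prod.fst, (#{q ∈ F.image Prod.snd | (a, q) ∈ F} : ℝ) = #F := by
    exact_mod_cast sum_fib F
  rw [e1, e2]
  have h1 : (#(F.image Prod.fst) : ℝ) ≤ #(Pr.image Prod.fst) := by
    exact_mod_cast card_le_card (image_subset_image h.sub)
  have h2 : lam * (#(F.image Prod.fst) : ℝ) ≤ K * #Q :=
    (mul_le_mul_of_nonneg_left h1 hl.le).trans h.cA
  have h3 := h.card
  have h4 : lam * (#Q * #(F.image Prod.fst) : ℝ) ≤ lam * (K ^ 2 * #F) := by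
    calc lam * (#Q * #(F.image Prod.fst) : ℝ) = #Q * (lam * #(F.image Prod.fst)) := by ring
      _ ≤ #Q * (K * #Q) := mul_le_mul_of_nonneg_left h2 hQ.le
      _ = K * (#Q : ℝ) ^ 2 := by ring
      _ ≤ K * (K * lam * #F) := mul_le_mul_of_nonneg_left h3 (by linarith)
      _ = _ := by ring
  exact le_of_mul_le_mul_left h4 hl

end Vale.Agent.P065.H183
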