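import Mathlib

/-!
# P065, upper bound, block [SEL5] (helper183; constants of helper415 19151 (6))

Selection of three classes `o1, o2, o3` among the apexes: for a positive proportion of the pairs
`(a, q)` the classes `o1, o2, o3, a` are all joined to `q`, no two of `o1, o2, a` form a bad
triple with `q`, the cross ratio of `(o1, o2; o3, a)` is in `[1/2, 2]` in absolute value and
`|u a - u o2| ≤ 2 |u o1 - u o2|`, `|u o3 - u o2| ≤ 2 |u o1 - u o2|`.
-/

set_option autoImplicit false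

namespace Vale.Agent.P065.H183

open Finset

/-- nice position of `(x1, x2; x3, x)`: with `t = (x - x2) / (x1 - x2)` and `rho = 1 / t - 1` the
quotient `rho (x) / rho (x3)` is in `[1/2, 2]` and `|t| ≤ 2`, `|t3| ≤ 2`. -/
structure Nc (x1 x2 x3 x : ℝ) : Prop where
  ta : |x - x2| ≤ 2 * |x1 - x2|
  tc : |x3 - x2| ≤ 2 * |x1 - x2|
  up : |x - x1| * |x2 - x3| ≤ 2 * (|x2 - x| * |x3 - x1|)
  lo : |x2 - x| * |x3 - x1| ≤ 2 * (|x - x1| * |x2 - x3|)

theorem Nc.neg {x1 x2 x3 x : ℝ} (h : Nc (-x1) (-x2) (-x3) (-x)) : Nc x1 x2 x3 x := by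
  have e : ∀ a b : ℝ, |(-a) - (-b)| = |a - b| := fun a b => by
    rw [← abs_neg]; congr 1; ring
  obtain ⟨h1, h2, h3, h4⟩ := h
  simp only [e] at h1 h2 h3 h4
  exact ⟨h1, h2, h3, h4⟩

/-- the case of four increasing points whose first gap is the largest one -/
theorem nc_four {p1 p2 p3 p4 : ℝ} (h12 : p1 < p2) (h23 : p2 < p3) (h34 : p3 < p4)
    (g2 : p3 - p2 ≤ p2 - p1) (g3 : p4 - p3 ≤ p2 - p1) : Nc p1 p2 p3 p4 ∨ Nc p1 p4 p2 p3 := by
  have ha : 0 < p2 - p1 := by linarith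
  have hb : 0 < p3 - p2 := by linarith
  have hc : 0 < p4 - p3 := by linarith
  have hS : (p3 - p1) * (p4 - p2) = (p2 - p1) * (p4 - p3) + (p3 - p2) * (p4 - p1) := by ring
  have h1 : 0 < (p2 - p1) * (p4 - p3) := mul_pos ha hc
  have h2 : 0 < (p3 - p2) * (p4 - p1) := mul_pos hb (by linarith)
  rcases le_total ((p2 - p1) * (p4 - p3)) ((p3 - p2) * (p4 - p1)) with h | h
  · left
    refine ⟨?_, ?_, ?_, ?_⟩
    · rw [abs_of_pos (by linarith), abs_of_neg (by linarith)]; linarith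
    · rw [abs_of_pos (by linarith), abs_of_neg (by linarith)]; linarith
    · rw [abs_of_pos (show 0 < p4 - p1 by linarith), abs_of_neg (show p2 - p3 < 0 by linarith),
        abs_of_neg (show p2 - p4 < 0 by linarith), abs_of_pos (show 0 < p3 - p1 by linarith)]
      linarith
    · rw [abs_of_pos (show 0 < p4 - p1 by linarith), abs_of_neg (show p2 - p3 < 0 by linarith),
        abs_of_neg (show p2 - p4 < 0 by linarith), abs_of_pos (show 0 < p3 - p1 by linarith)]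
      linarith
  · right
    refine ⟨?_, ?_, ?_, ?_⟩
    · rw [abs_of_neg (by linarith), abs_of_neg (by linarith)]; linarith
    · rw [abs_of_neg (by linarith), abs_of_neg (by linarith)]; linarith
    · rw [abs_of_pos (show 0 < p3 - p1 by linarith), abs_of_pos (show 0 < p4 - p2 by linarith),
        abs_of_pos (show 0 < p4 - p3 by linarith), abs_of_pos (show 0 < p2 - p1 by linarith)]
      linarith
    · rw [abs_of_pos (show 0 < p3 - p1 by linarith), abs_of_pos (show 0 < p4 - p2 by linarith),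
        abs_of_pos (show 0 < p4 - p3 by linarith), abs_of_pos (show 0 < p2 - p1 by linarith)]
      linarith

/-- five increasing points -/
theorem nc_five (x : Fin 5 → ℝ) (h : StrictMono x) :
    ∃ i j k l : Fin 5, i ≠ j ∧ i ≠ k ∧ i ≠ l ∧ j ≠ k ∧ j ≠ l ∧ k ≠ l ∧
      Nc (x i) (x j) (x k) (x l) := by
  have h01 : x 0 < x 1 := h (by decide)
  have h12 : x 1 < x 2 := h (by decide)
  have h23 : x 2 < x 3 := h (by decide)
  have h34 : x 3 < x 4 := h (by decide)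
  -- largest gap
  rcases le_total (x 1 - x 0) (x 2 - x 1) with a | a
  · rcases le_total (x 2 - x 1) (x 3 - x 2) with b | b
    · rcases le_total (x 3 - x 2) (x 4 - x 3) with c | c
      · -- gap 3 (4 vs 3): mirror
        rcases nc_four (p1 := -x 4) (p2 := -x 3) (p3 := -x 2) (p4 := -x 1) (by linarith)
          (by linarith) (by linarith) (by linarith) (by linarith) with H | H
        · exact ⟨4, 3, 2, 1, by decide, by decide, by decide, by decide, by decide, by decide,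
            H.neg⟩
        · exact ⟨4, 1, 3, 2, by decide, by decide, by decide, by decide, by decide, by decide,
            H.neg⟩
      · -- gap 2 (between 2 and 3) is the largest : mirror p1 = x 3, p2 = x 2, ...
        rcases nc_four (p1 := -x 3) (p2 := -x 2) (p3 := -x 1) (p4 := -x 0) (by linarith)
          (by linarith) (by linarith) (by linarith) (by linarith) with H | H
        · exact ⟨3, 2, 1, 0, by decide, by decide, by decide, by decide, by decide, by decide,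
            H.neg⟩
        · exact ⟨3, 0, 2, 1, by decide, by decide, by decide, by decide, by decide, by decide,
            H.neg⟩
    · rcases le_total (x 2 - x 1) (x 4 - x 3) with c | c
      · rcases nc_four (p1 := -x 4) (p2 := -x 3) (p3 := -x 2) (p4 := -x 1) (by linarith)
          (by linarith) (by linarith) (by linarith) (by linarith) with H | H
        · exact ⟨4, 3, 2, 1, by decide, by decide, by decide, by decide, by decide, by decide,
            H.neg⟩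
        · exact ⟨4, 1, 3, 2, by decide, by decide, by decide, by decide, by decide, by decide,
            H.neg⟩
      · -- gap 1 is the largest
        rcases nc_four h12 h23 h34 (by linarith) (by linarith) with H | H
        · exact ⟨1, 2, 3, 4, by decide, by decide, by decide, by decide, by decide, by decide, H⟩
        · exact ⟨1, 4, 2, 3, by decide, by decide, by decide, by decide, by decide, by decide, H⟩
  · rcases le_total (x 1 - x 0) (x 3 - x 2) with b | b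
    · rcases le_total (x 3 - x 2) (x 4 - x 3) with c | c
      · rcases nc_four (p1 := -x 4) (p2 := -x 3) (p3 := -x 2) (p4 := -x 1) (by linarith)
          (by linarith) (by linarith) (by linarith) (by linarith) with H | H
        · exact ⟨4, 3, 2, 1, by decide, by decide, by decide, by decide, by decide, by decide,
            H.neg⟩
        · exact ⟨4, 1, 3, 2, by decide, by decide, by decide, by decide, by decide, by decide,
            H.neg⟩
      · rcases nc_four (p1 := -x 3) (p2 := -x 2) (p3 := -x 1) (p4 := -x 0) (by linarith)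
          (by linarith) (by linarith) (by linarith) (by linarith) with H | H
        · exact ⟨3, 2, 1, 0, by decide, by decide, by decide, by decide, by decide, by decide,
            H.neg⟩
        · exact ⟨3, 0, 2, 1, by decide, by decide, by decide, by decide, by decide, by decide,
            H.neg⟩
    · rcases nc_four h01 h12 h23 (by linarith) (by linarith) with H | H
      · exact ⟨0, 1, 2, 3, by decide, by decide, by decide, by decide, by decide, by decide, H⟩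
      · exact ⟨0, 3, 1, 2, by decide, by decide, by decide, by decide, by decide, by decide, H⟩

variable {α β : Type*}

/-- every set of five classes contains a nice quadruple -/
theorem nc_set (u : α → ℝ) (S : Finset α) (hS : #S = 5)
    (hinj : ∀ a ∈ S, ∀ b ∈ S, u a = u b → a = b) :
    ∃ o1 ∈ S, ∃ o2 ∈ S, ∃ o3 ∈ S, ∃ a ∈ S, o1 ≠ o2 ∧ o1 ≠ o3 ∧ o1 ≠ a ∧ o2 ≠ o3 ∧ o2 ≠ a ∧
      o3 ≠ a ∧ Nc (u o1) (u o2) (u o3) (u a) := by
  classical
  have hc : #(S.image u) = 5 := by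
    rw [card_image_of_injOn (fun a ha b hb h => hinj a ha b hb h), hS]
  set f := (S.image u).orderEmbOfFin hc with hf
  obtain ⟨i, j, k, l, hij, hik, hil, hjk, hjl, hkl, H⟩ := nc_five (fun i => f i) f.strictMono
  have hm : ∀ i, ∃ a ∈ S, u a = f i := fun i => mem_image.1 ((S.image u).orderEmbOfFin_mem hc i)
  obtain ⟨a, ha, ea⟩ := hm i
  obtain ⟨b, hb, eb⟩ := hm j
  obtain ⟨c, hcS, ec⟩ := hm k
  obtain ⟨d, hd, ed⟩ := hm l
  have hne : ∀ {i j : Fin 5} {a b : α}, i ≠ j → u a = f i → u b = f j → a ≠ b := by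
    intro i j a b hij ea eb hab
    rw [hab, eb] at ea
    exact hij (f.injective ea).symm
  refine ⟨a, ha, b, hb, c, hcS, d, hd, hne hij ea eb, hne hik ea ec, hne hil ea ed,
    hne hjk eb ec, hne hjl eb ed, hne hkl ec ed, ?_⟩
  rw [ea, eb, ec, ed]
  exact H

open Classical in
/-- the nice quadruples of a set -/
noncomputable def NQ (u : α → ℝ) (D : Finset α) : Finset (α × α × α × α) :=
  {t ∈ D ×ˢ D ×ˢ D ×ˢ D | t.1 ≠ t.2.1 ∧ t.1 ≠ t.2.2.1 ∧ t.1 ≠ t.2.2.2 ∧ t.2.1 ≠ t.2.2.1 ∧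
    t.2.1 ≠ t.2.2.2 ∧ t.2.2.1 ≠ t.2.2.2 ∧ Nc (u t.1) (u t.2.1) (u t.2.2.1) (u t.2.2.2)}

theorem choose_le_NQ (u : α → ℝ) (D : Finset α)
    (hinj : ∀ a ∈ D, ∀ b ∈ D, u a = u b → a = b) : (#D).choose 5 ≤ #(NQ u D) * #D := by
  classical
  have h1 : D.powersetCard 5 ⊆ (NQ u D ×ˢ D).image
      (fun y => ({y.1.1, y.1.2.1, y.1.2.2.1, y.1.2.2.2, y.2} : Finset α)) := by
    intro S hS
    obtain ⟨hSD, hS5⟩ := mem_powersetCard.1 hS
    obtain ⟨o1, h1, o2, h2, o3, h3, a, ha, n12, n13, n1a, n23, n2a, n3a, H⟩ :=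
      nc_set u S hS5 (fun a ha b hb => hinj a (hSD ha) b (hSD hb))
    have h4 : #({o1, o2, o3, a} : Finset α) = 4 := by
      rw [card_insert_of_notMem, card_insert_of_notMem, card_insert_of_notMem, card_singleton]
      · simpa using n3a
      · simp only [mem_insert, mem_singleton, not_or]; exact ⟨n23, n2a⟩
      · simp only [mem_insert, mem_singleton, not_or]; exact ⟨n12, n13, n1a⟩
    have h5 : ({o1, o2, o3, a} : Finset α) ⊆ S := by
      intro z hz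
      simp only [mem_insert, mem_singleton] at hz
      rcases hz with rfl | rfl | rfl | rfl <;> assumption
    have h6 : #(S \ {o1, o2, o3, a}) = 1 := by
      rw [card_sdiff_of_subset h5, hS5, h4]
    obtain ⟨x, hx⟩ := card_eq_one.1 h6
    rw [mem_image]
    refine ⟨((o1, o2, o3, a), x), ?_, ?_⟩
    · rw [mem_product]
      refine ⟨?_, ?_⟩
      · unfold NQ
        rw [mem_filter]
        simp only [mem_product]
        exact ⟨⟨hSD h1, hSD h2, hSD h3, hSD ha⟩, n12, n13, n1a, n23, n2a, n3a, H⟩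
      · have : x ∈ S \ {o1, o2, o3, a} := by rw [hx]; exact mem_singleton_self x
        exact hSD (mem_sdiff.1 this).1
    · have h7 : S = {o1, o2, o3, a} ∪ (S \ {o1, o2, o3, a}) := (union_sdiff_of_subset h5).symm
      rw [h7, hx]
      ext z
      simp only [mem_union, mem_insert, mem_singleton]
      tauto
  rw [← card_powersetCard, ← card_product]
  exact (card_le_card h1).trans card_image_le

theorem pow_le_NQ (u : α → ℝ) (D : Finset α)
    (hinj : ∀ a ∈ D, ∀ b ∈ D, u a = u b → a = b) : (#D : ℝ) ^ 4 ≤ 3840 * #(NQ u D) + 4096 := by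
  have h := choose_le_NQ u D hinj
  set d := #D with hd
  set g := #(NQ u D) with hg
  rcases Nat.lt_or_ge d 8 with h8 | h8
  · have h1 : (d : ℝ) ≤ 8 := by exact_mod_cast h8.le
    have h2 : (d : ℝ) ^ 4 ≤ 8 ^ 4 := pow_le_pow_left₀ (Nat.cast_nonneg _) h1 4
    have h3 : (0 : ℝ) ≤ g := Nat.cast_nonneg _
    linarith
  · have h1 : d.descFactorial 5 = 120 * d.choose 5 := by
      rw [Nat.descFactorial_eq_factorial_mul_choose]; rfl
    have h2 : (d + 1 - 5) ^ 5 ≤ d.descFactorial 5 := Nat.pow_sub_le_descFactorial d 5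
    have h3 : (d + 1 - 5) ^ 5 ≤ 120 * (g * d) := by
      rw [h1] at h2
      exact h2.trans (Nat.mul_le_mul_left _ h)
    have h4 : ((d + 1 - 5 : ℕ) : ℝ) = d - 4 := by
      rw [Nat.cast_sub (by omega)]; push_cast; ring
    have h5 : ((d : ℝ) - 4) ^ 5 ≤ 120 * (g * d) := by
      rw [← h4]; exact_mod_cast h3
    have h6 : (8 : ℝ) ≤ d := by exact_mod_cast h8
    have h7 : ((d : ℝ) / 2) ^ 5 ≤ ((d : ℝ) - 4) ^ 5 :=
      pow_le_pow_left₀ (by linarith) (by linarith) 5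
    have h8 : (d : ℝ) * (d : ℝ) ^ 4 ≤ d * (3840 * g) := by
      have : ((d : ℝ) / 2) ^ 5 = (d : ℝ) ^ 5 / 32 := by ring
      rw [this] at h7
      nlinarith
    have h9 : (d : ℝ) ^ 4 ≤ 3840 * g := le_of_mul_le_mul_left h8 (by linarith)
    linarith

open Classical in
/-- the number of nice quadruples joined to a common point -/
theorem sum_NQ (V : Finset α) (Q : Finset β) (E : Finset (α × β)) (u : α → ℝ) (K : ℝ) (hK : 1 ≤ K)
    (hE : E ⊆ V ×ˢ Q) (hd : (#V : ℝ) * #Q ≤ K * #E) (hV : 16 * K ≤ #V) (hQ : Q.Nonempty)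
    (hinj : ∀ a ∈ V, ∀ b ∈ V, u a = u b → a = b) :
    (#V : ℝ) ^ 4 * #Q ≤ 7680 * K ^ 4 * ∑ q ∈ Q, (#(NQ u (V.filter fun a => (a, q) ∈ E)) : ℝ) := by
  have hK0 : 0 < K := by linarith
  have hVpos : (0 : ℝ) < #V := by linarith
  have hQpos : (0 : ℝ) < #Q := by exact_mod_cast hQ.card_pos
  set D : β → Finset α := fun q => V.filter fun a => (a, q) ∈ E with hD
  have hDV : ∀ q, D q ⊆ V := fun q => filter_subset _ _
  -- the degrees
  have hdeg : (#E : ℝ) = ∑ q ∈ Q, (#(D q) : ℝ) := by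
    have : #E = ∑ q ∈ Q, #(D q) := by
      have h1 : #E = ∑ q ∈ Q, #(E.filter fun p => p.2 = q) :=
        card_eq_sum_card_fiberwise (fun p hp => (mem_product.1 (hE hp)).2)
      rw [h1]
      refine sum_congr rfl fun q _ => ?_
      refine card_bij (fun p _ => p.1) ?_ ?_ ?_
      · rintro ⟨a, q'⟩ hp
        simp only [mem_filter] at hp
        obtain ⟨hp, rfl⟩ := hp
        exact mem_filter.2 ⟨(mem_product.1 (hE hp)).1, hp⟩
      · rintro ⟨a, q1⟩ h1 ⟨b, q2⟩ h2 h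
        simp only [mem_filter] at h1 h2
        simp only at h
        rw [h, h1.2, h2.2]
      · intro a ha
        refine ⟨(a, q), ?_, rfl⟩
        simp only [hD, mem_filter] at ha ⊢
        exact ⟨ha.2, trivial⟩
    rw [this]; push_cast; rfl
  -- power mean
  have hpm : (#V : ℝ) ^ 4 * #Q ≤ K ^ 4 * ∑ q ∈ Q, (#(D q) : ℝ) ^ 4 := by
    have h2 : (∑ q ∈ Q, (#(D q) : ℝ)) ^ (3 + 1) / (#Q : ℝ) ^ 3 ≤ ∑ q ∈ Q, (#(D q) : ℝ) ^ (3 + 1) :=
      pow_sum_div_card_le_sum_pow (fun q _ => Nat.cast_nonneg _) 3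
    rw [div_le_iff₀ (by positivity), ← hdeg] at h2
    have h3 : ((#V : ℝ) * #Q) ^ 4 ≤ (K * #E) ^ 4 := by gcongr
    have h4 : ((#V : ℝ) ^ 4 * #Q) * (#Q : ℝ) ^ 3 ≤
        (K ^ 4 * ∑ q ∈ Q, (#(D q) : ℝ) ^ 4) * (#Q : ℝ) ^ 3 := by
      calc ((#V : ℝ) ^ 4 * #Q) * (#Q : ℝ) ^ 3 = ((#V : ℝ) * #Q) ^ 4 := by ring
        _ ≤ (K * #E) ^ 4 := h3
        _ = K ^ 4 * (#E : ℝ) ^ (3 + 1) := by ring
        _ ≤ K ^ 4 * ((∑ q ∈ Q, (#(D q) : ℝ) ^ (3 + 1)) * (#Q : ℝ) ^ 3) := by gcongr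
        _ = _ := by ring
    exact le_of_mul_le_mul_right h4 (by positivity)
  have hGq : ∀ q, (#(D q) : ℝ) ^ 4 ≤ 3840 * #(NQ u (D q)) + 4096 := fun q =>
    pow_le_NQ u (D q) (fun a ha b hb => hinj a (hDV q ha) b (hDV q hb))
  have h1 : ∑ q ∈ Q, (#(D q) : ℝ) ^ 4 ≤ 3840 * ∑ q ∈ Q, (#(NQ u (D q)) : ℝ) + 4096 * #Q := by
    calc ∑ q ∈ Q, (#(D q) : ℝ) ^ 4 ≤ ∑ q ∈ Q, (3840 * (#(NQ u (D q)) : ℝ) + 4096) :=
          sum_le_sum fun q _ => hGq q
      _ = _ := by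
          rw [sum_add_distrib, ← mul_sum, sum_const, nsmul_eq_mul]; ring
  have h2 : K ^ 4 * (4096 * #Q) ≤ (1 / 2) * ((#V : ℝ) ^ 4 * #Q) := by
    have h3 : (16 * K) ^ 4 ≤ (#V : ℝ) ^ 4 := pow_le_pow_left₀ (by positivity) hV 4
    have h4 : K ^ 4 * 4096 ≤ (1 / 2) * (#V : ℝ) ^ 4 := by
      have : (16 * K) ^ 4 = 65536 * K ^ 4 := by ring
      rw [this] at h3
      have : 0 ≤ K ^ 4 := by positivity
      linarith
    calc K ^ 4 * (4096 * #Q) = (K ^ 4 * 4096) * #Q := by ring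
      _ ≤ ((1 / 2) * (#V : ℝ) ^ 4) * #Q := mul_le_mul_of_nonneg_right h4 hQpos.le
      _ = _ := by ring
  have h3 : (#V : ℝ) ^ 4 * #Q ≤ K ^ 4 * (3840 * ∑ q ∈ Q, (#(NQ u (D q)) : ℝ)) +
      (1 / 2) * ((#V : ℝ) ^ 4 * #Q) := by
    calc (#V : ℝ) ^ 4 * #Q ≤ K ^ 4 * ∑ q ∈ Q, (#(D q) : ℝ) ^ 4 := hpm
      _ ≤ K ^ 4 * (3840 * ∑ q ∈ Q, (#(NQ u (D q)) : ℝ) + 4096 * #Q) := by gcongr
      _ = K ^ 4 * (3840 * ∑ q ∈ Q, (#(NQ u (D q)) : ℝ)) + K ^ 4 * (4096 * #Q) := by ring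
      _ ≤ _ := by linarith
  linarith

/-- a quadruple `(o1, o2, o3, a)` with a point `q`, everything joined, nice -/
structure QG (V : Finset α) (Q : Finset β) (E : Finset (α × β)) (u : α → ℝ) (o1 o2 o3 a : α)
    (q : β) : Prop where
  hq : q ∈ Q
  v1 : o1 ∈ V
  v2 : o2 ∈ V
  v3 : o3 ∈ V
  va : a ∈ V
  e1 : (o1, q) ∈ E
  e2 : (o2, q) ∈ E
  e3 : (o3, q) ∈ E
  ea : (a, q) ∈ E
  n12 : o1 ≠ o2
  n13 : o1 ≠ o3
  n1a : o1 ≠ a
  n23 : o2 ≠ o3
  n2a : o2 ≠ a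
  n3a : o3 ≠ a
  nc : Nc (u o1) (u o2) (u o3) (u a)

open Classical in
/-- all nice quadruples with their points -/
noncomputable def GG (V : Finset α) (Q : Finset β) (E : Finset (α × β)) (u : α → ℝ) :
    Finset (α × α × α × α × β) :=
  {t ∈ V ×ˢ V ×ˢ V ×ˢ V ×ˢ Q | QG V Q E u t.1 t.2.1 t.2.2.1 t.2.2.2.1 t.2.2.2.2}

theorem mem_GG {V : Finset α} {Q : Finset β} {E : Finset (α × β)} {u : α → ℝ}
    {t : α × α × α × α × β} :
    t ∈ GG V Q E u ↔ QG V Q E u t.1 t.2.1 t.2.2.1 t.2.2.2.1 t.2.2.2.2 := by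
  classical
  unfold GG
  rw [mem_filter]
  constructor
  · exact fun h => h.2
  · intro h
    refine ⟨?_, h⟩
    simp only [mem_product]
    exact ⟨h.v1, h.v2, h.v3, h.va, h.hq⟩

open Classical in
theorem sum_NQ_le (V : Finset α) (Q : Finset β) (E : Finset (α × β)) (u : α → ℝ) :
    ∑ q ∈ Q, #(NQ u (V.filter fun a => (a, q) ∈ E)) ≤ #(GG V Q E u) := by
  rw [← card_sigma]
  refine card_le_card_of_injOn (fun x => (x.2.1, x.2.2.1, x.2.2.2.1, x.2.2.2.2, x.1)) ?_ ?_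
  · rintro ⟨q, a, b, c, d⟩ h
    rw [mem_coe, mem_sigma] at h
    obtain ⟨hq, h⟩ := h
    simp only at hq h
    unfold NQ at h
    rw [mem_filter] at h
    obtain ⟨h1, h2⟩ := h
    simp only [mem_product, mem_filter] at h1 h2
    rw [mem_coe, mem_GG]
    exact ⟨hq, h1.1.1, h1.2.1.1, h1.2.2.1.1, h1.2.2.2.1, h1.1.2, h1.2.1.2, h1.2.2.1.2, h1.2.2.2.2,
      h2.1, h2.2.1, h2.2.2.1, h2.2.2.2.1, h2.2.2.2.2.1, h2.2.2.2.2.2.1, h2.2.2.2.2.2.2⟩
  · rintro ⟨q, a, b, c, d⟩ _ ⟨q', a', b', c', d'⟩ _ h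
    simp only [Prod.mk.injEq] at h
    obtain ⟨rfl, rfl, rfl, rfl, rfl⟩ := h
    rfl

/-- the triples `(o1, o2)`, `(o1, a)`, `(o2, a)` are not bad at `q` -/
def NB (Bad : Finset (α × α × β)) (o1 o2 a : α) (q : β) : Prop :=
  (o1, o2, q) ∉ Bad ∧ (o1, a, q) ∉ Bad ∧ (o2, a, q) ∉ Bad

open Classical in
theorem card_bad (V : Finset α) (Q : Finset β) (E : Finset (α × β)) (u : α → ℝ)
    (Bad : Finset (α × α × β)) :
    #{t ∈ GG V Q E u | ¬ NB Bad t.1 t.2.1 t.2.2.2.1 t.2.2.2.2} ≤ 3 * (#Bad * (#V * #V)) := by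
  have h1 : {t ∈ GG V Q E u | ¬ NB Bad t.1 t.2.1 t.2.2.2.1 t.2.2.2.2} ⊆
      {t ∈ GG V Q E u | (t.1, t.2.1, t.2.2.2.2) ∈ Bad} ∪
        ({t ∈ GG V Q E u | (t.1, t.2.2.2.1, t.2.2.2.2) ∈ Bad} ∪
        {t ∈ GG V Q E u | (t.2.1, t.2.2.2.1, t.2.2.2.2) ∈ Bad}) := by
    intro t ht
    rw [mem_filter] at ht
    rw [mem_union, mem_union, mem_filter, mem_filter, mem_filter]
    have h := ht.2
    unfold NB at h
    have h0 := ht.1
    tauto
  have h2 : #(Bad ×ˢ V ×ˢ V) = #Bad * (#V * #V) := by rw [card_product, card_product]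
  have h3 : #{t ∈ GG V Q E u | (t.1, t.2.1, t.2.2.2.2) ∈ Bad} ≤ #Bad * (#V * #V) := by
    rw [← h2]
    refine card_le_card_of_injOn (fun t => ((t.1, t.2.1, t.2.2.2.2), t.2.2.1, t.2.2.2.1)) ?_ ?_
    · intro t ht
      rw [mem_coe, mem_filter] at ht
      have h := mem_GG.1 ht.1
      rw [mem_coe, mem_product, mem_product]
      exact ⟨ht.2, h.v3, h.va⟩
    · rintro ⟨a, b, c, d, q⟩ _ ⟨a', b', c', d', q'⟩ _ h
      simp only [Prod.mk.injEq] at h
      obtain ⟨⟨rfl, rfl, rfl⟩, rfl, rfl⟩ := h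
      rfl
  have h4 : #{t ∈ GG V Q E u | (t.1, t.2.2.2.1, t.2.2.2.2) ∈ Bad} ≤ #Bad * (#V * #V) := by
    rw [← h2]
    refine card_le_card_of_injOn (fun t => ((t.1, t.2.2.2.1, t.2.2.2.2), t.2.1, t.2.2.1)) ?_ ?_
    · intro t ht
      rw [mem_coe, mem_filter] at ht
      have h := mem_GG.1 ht.1
      rw [mem_coe, mem_product, mem_product]
      exact ⟨ht.2, h.v2, h.v3⟩
    · rintro ⟨a, b, c, d, q⟩ _ ⟨a', b', c', d', q'⟩ _ h
      simp only [Prod.mk.injEq] at h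
      obtain ⟨⟨rfl, rfl, rfl⟩, rfl, rfl⟩ := h
      rfl
  have h5 : #{t ∈ GG V Q E u | (t.2.1, t.2.2.2.1, t.2.2.2.2) ∈ Bad} ≤ #Bad * (#V * #V) := by
    rw [← h2]
    refine card_le_card_of_injOn (fun t => ((t.2.1, t.2.2.2.1, t.2.2.2.2), t.1, t.2.2.1)) ?_ ?_
    · intro t ht
      rw [mem_coe, mem_filter] at ht
      have h := mem_GG.1 ht.1
      rw [mem_coe, mem_product, mem_product]
      exact ⟨ht.2, h.v1, h.v3⟩
    · rintro ⟨a, b, c, d, q⟩ _ ⟨a', b', c', d', q'⟩ _ h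
      simp only [Prod.mk.injEq] at h
      obtain ⟨⟨rfl, rfl, rfl⟩, rfl, rfl⟩ := h
      rfl
  calc _ ≤ _ := card_le_card h1
    _ ≤ _ := (card_union_le _ _).trans (add_le_add h3
        ((card_union_le _ _).trans (add_le_add h4 h5)))
    _ = _ := by ring

open Classical in
/-- **SEL5** -/
theorem sel5 (V : Finset α) (Q : Finset β) (E : Finset (α × β)) (Bad : Finset (α × α × β))
    (u : α → ℝ) (K : ℝ) (hK : 1 ≤ K) (hE : E ⊆ V ×ˢ Q) (hd : (#V : ℝ) * #Q ≤ K * #E)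
    (hV : 16 * K ≤ #V) (hQ : Q.Nonempty) (hB : 46080 * K ^ 4 * #Bad ≤ (#V : ℝ) ^ 2 * #Q)
    (hinj : ∀ a ∈ V, ∀ b ∈ V, u a = u b → a = b) :
    ∃ o1 o2 o3 : α, ∃ G : Finset (α × β), G ⊆ E ∧ (#V : ℝ) * #Q ≤ 15360 * K ^ 4 * #G ∧
      ∀ p ∈ G, QG V Q E u o1 o2 o3 p.1 p.2 ∧ NB Bad o1 o2 p.1 p.2 := by
  have hK0 : 0 < K := by linarith
  have hVpos : (0 : ℝ) < #V := by linarith
  have hQpos : (0 : ℝ) < #Q := by exact_mod_cast hQ.card_pos
  have hG : (#V : ℝ) ^ 4 * #Q ≤ 7680 * K ^ 4 * #(GG V Q E u) := by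
    refine (sum_NQ V Q E u K hK hE hd hV hQ hinj).trans ?_
    have := sum_NQ_le V Q E u
    have h : ∑ q ∈ Q, (#(NQ u (V.filter fun a => (a, q) ∈ E)) : ℝ) ≤ #(GG V Q E u) := by
      exact_mod_cast this
    gcongr
  set Rt := {t ∈ GG V Q E u | NB Bad t.1 t.2.1 t.2.2.2.1 t.2.2.2.2} with hRt
  have hRtc : (#V : ℝ) ^ 4 * #Q ≤ 15360 * K ^ 4 * #Rt := by
    have h1 : (#Rt : ℝ) + #{t ∈ GG V Q E u | ¬ NB Bad t.1 t.2.1 t.2.2.2.1 t.2.2.2.2} =
        #(GG V Q E u) := by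
      have := Finset.card_filter_add_card_filter_not (s := GG V Q E u)
        (fun t => NB Bad t.1 t.2.1 t.2.2.2.1 t.2.2.2.2)
      exact_mod_cast this
    have h0 : (#{t ∈ GG V Q E u | ¬ NB Bad t.1 t.2.1 t.2.2.2.1 t.2.2.2.2} : ℝ) ≤
        3 * (#Bad * (#V * #V)) := by exact_mod_cast card_bad V Q E u Bad
    have h2 : 15360 * K ^ 4 * (3 * (#Bad * (#V * #V)) : ℝ) ≤ (#V : ℝ) ^ 4 * #Q := by
      calc 15360 * K ^ 4 * (3 * (#Bad * (#V * #V)) : ℝ)
          = (46080 * K ^ 4 * #Bad) * (#V : ℝ) ^ 2 := by ring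
        _ ≤ ((#V : ℝ) ^ 2 * #Q) * (#V : ℝ) ^ 2 := by gcongr
        _ = _ := by ring
    have h3 : 15360 * K ^ 4 * (#{t ∈ GG V Q E u | ¬ NB Bad t.1 t.2.1 t.2.2.2.1 t.2.2.2.2} : ℝ) ≤
        (#V : ℝ) ^ 4 * #Q := le_trans (by gcongr) h2
    rw [← h1] at hG
    linarith
  have hVne : V.Nonempty := by
    rw [← card_pos]; exact_mod_cast hVpos
  have hVV : (V ×ˢ V ×ˢ V).Nonempty := hVne.product (hVne.product hVne)
  have hmaps : ∀ t ∈ Rt, (t.1, t.2.1, t.2.2.1) ∈ V ×ˢ V ×ˢ V := by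
    intro t ht
    have h := mem_GG.1 (mem_filter.1 ht).1
    rw [mem_product, mem_product]
    exact ⟨h.v1, h.v2, h.v3⟩
  have hfib : #Rt = ∑ o ∈ V ×ˢ V ×ˢ V, #{t ∈ Rt | (t.1, t.2.1, t.2.2.1) = o} :=
    card_eq_sum_card_fiberwise hmaps
  obtain ⟨o, ho, hle⟩ : ∃ o ∈ V ×ˢ V ×ˢ V,
      #Rt ≤ #(V ×ˢ V ×ˢ V) * #{t ∈ Rt | (t.1, t.2.1, t.2.2.1) = o} := by
    by_contra hcon
    push Not at hcon
    have h1 : ∑ o ∈ V ×ˢ V ×ˢ V, #(V ×ˢ V ×ˢ V) * #{t ∈ Rt | (t.1, t.2.1, t.2.2.1) = o} <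
        ∑ o ∈ V ×ˢ V ×ˢ V, #Rt := sum_lt_sum_of_nonempty hVV hcon
    rw [← mul_sum, ← hfib, sum_const, smul_eq_mul] at h1
    exact lt_irrefl _ h1
  obtain ⟨o1, o2, o3⟩ := o
  set F := {t ∈ Rt | (t.1, t.2.1, t.2.2.1) = (o1, o2, o3)} with hF
  set g : α × α × α × α × β → α × β := fun t => (t.2.2.2.1, t.2.2.2.2) with hg
  have hFm : ∀ t ∈ F, QG V Q E u o1 o2 o3 (g t).1 (g t).2 ∧ NB Bad o1 o2 (g t).1 (g t).2 := by
    rintro ⟨a, b, c, d, q⟩ ht
    obtain ⟨h1, h2⟩ := mem_filter.1 ht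
    obtain ⟨h3, h4⟩ := mem_filter.1 h1
    simp only [Prod.mk.injEq] at h2
    obtain ⟨rfl, rfl, rfl⟩ := h2
    exact ⟨mem_GG.1 h3, h4⟩
  have hgi : Set.InjOn g F := by
    rintro ⟨a, b, c, d, q⟩ ht ⟨a', b', c', d', q'⟩ ht' h
    have h1 := (mem_filter.1 (mem_coe.1 ht)).2
    have h2 := (mem_filter.1 (mem_coe.1 ht')).2
    simp only [Prod.mk.injEq] at h1 h2
    simp only [hg, Prod.mk.injEq] at h
    obtain ⟨rfl, rfl, rfl⟩ := h1
    obtain ⟨rfl, rfl, rfl⟩ := h2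
    obtain ⟨rfl, rfl⟩ := h
    rfl
  refine ⟨o1, o2, o3, F.image g, ?_, ?_, ?_⟩
  · intro p hp
    obtain ⟨t, ht, rfl⟩ := mem_image.1 hp
    exact (hFm t ht).1.ea
  · rw [card_image_of_injOn hgi]
    have h1 : (#Rt : ℝ) ≤ (#V : ℝ) ^ 3 * #F := by
      have : (#Rt : ℝ) ≤ ((#(V ×ˢ V ×ˢ V) * #F : ℕ) : ℝ) := by exact_mod_cast hle
      refine this.trans (le_of_eq ?_)
      rw [card_product, card_product]; push_cast; ring
    have h2 : (#V : ℝ) ^ 3 * (#V * #Q) ≤ (#V : ℝ) ^ 3 * (15360 * K ^ 4 * #F) := by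
      calc (#V : ℝ) ^ 3 * (#V * #Q) = (#V : ℝ) ^ 4 * #Q := by ring
        _ ≤ 15360 * K ^ 4 * #Rt := hRtc
        _ ≤ 15360 * K ^ 4 * ((#V : ℝ) ^ 3 * #F) := by gcongr
        _ = _ := by ring
    exact le_of_mul_le_mul_left h2 (by positivity)
  · intro p hp
    obtain ⟨t, ht, rfl⟩ := mem_image.1 hp
    exact hFm t ht

end Vale.Agent.P065.H183
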