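import Vale.Agent.P065.H183.Sel5
import Vale.Agent.P065.H989.PolesDefs

/-!
# P065, upper bound: the literal Prop `StSel` of helper989 (helper183)
-/

set_option autoImplicit false

namespace Vale.Agent.P065.H183

open Finset Vale.Agent.P065.UB Vale.Agent.P065.H989

theorem Nc.rho_le {x1 x2 x3 x : ℝ} (h : Nc x1 x2 x3 x) (h1 : x ≠ x1) (h2 : x ≠ x2) (h3 : x3 ≠ x1)
    (h4 : x3 ≠ x2) : 1 / 2 ≤ |rho x1 x2 x / rho x1 x2 x3| ∧ |rho x1 x2 x / rho x1 x2 x3| ≤ 2 := by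
  have e1 : 0 < |x - x1| := abs_pos.2 (sub_ne_zero.2 h1)
  have e2 : 0 < |x2 - x| := abs_pos.2 (sub_ne_zero.2 h2.symm)
  have e3 : 0 < |x3 - x1| := abs_pos.2 (sub_ne_zero.2 h3)
  have e4 : 0 < |x2 - x3| := abs_pos.2 (sub_ne_zero.2 h4.symm)
  have e : |rho x1 x2 x / rho x1 x2 x3| = (|x - x1| * |x2 - x3|) / (|x2 - x| * |x3 - x1|) := by
    unfold rho
    rw [abs_div, abs_div, abs_div]
    field_simp
  rw [e]
  constructor
  · rw [div_le_div_iff₀ (by norm_num) (by positivity)]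
    have := h.lo
    linarith
  · rw [div_le_iff₀ (by positivity)]
    exact h.up

/-- **[SEL]** -/
theorem stSel : StSel := by
  refine ⟨20, ?_⟩
  intro K V Q E u Bad hK hE hd hV hinj hB
  classical
  have hK1 : 1 ≤ K := by linarith
  have hK0 : 0 < K := by linarith
  have p4 : (2 : ℝ) ^ 4 ≤ K ^ 4 := pow_le_pow_left₀ (by norm_num) hK 4
  have p16 : (2 : ℝ) ^ 16 ≤ K ^ 16 := pow_le_pow_left₀ (by norm_num) hK 16
  have hV' : 16 * K ≤ #V := by
    refine le_trans ?_ hV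
    calc 16 * K ≤ K ^ 4 * K := by norm_num at p4; nlinarith
      _ = K ^ 5 := by ring
      _ ≤ K ^ 20 := pow_le_pow_right₀ hK1 (by norm_num)
  have hVpos : (0 : ℝ) < #V := by linarith
  rcases Q.eq_empty_or_nonempty with hQ | hQ
  · subst hQ
    have h3 : 3 ≤ #V := by
      have : (3 : ℝ) ≤ #V := by linarith
      exact_mod_cast this
    obtain ⟨T, hTV, hT⟩ := exists_subset_card_eq h3
    obtain ⟨a, b, c, hab, hac, hbc, rfl⟩ := card_eq_three.1 hT
    refine ⟨a, hTV (by simp), b, hTV (by simp), c, hTV (by simp), hab, hac, hbc, ?_⟩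
    rw [card_empty, Nat.cast_zero, mul_zero]
    positivity
  have hB' : 46080 * K ^ 4 * #Bad ≤ (#V : ℝ) ^ 2 * #Q := by
    refine le_trans ?_ hB
    have : 46080 * K ^ 4 ≤ K ^ 20 := by
      calc 46080 * K ^ 4 ≤ K ^ 16 * K ^ 4 := by
            apply mul_le_mul_of_nonneg_right _ (by positivity)
            norm_num at p16; linarith
        _ = K ^ 20 := by ring
    exact mul_le_mul_of_nonneg_right this (Nat.cast_nonneg _)
  obtain ⟨o1, o2, o3, G, hG, hc, hp⟩ := sel5 V Q E Bad u K hK1 hE hd hV' hQ hB' hinj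
  have hQpos : (0 : ℝ) < #Q := by exact_mod_cast hQ.card_pos
  have hGne : G.Nonempty := by
    rw [nonempty_iff_ne_empty]
    rintro rfl
    rw [card_empty, Nat.cast_zero, mul_zero] at hc
    have : 0 < (#V : ℝ) * #Q := mul_pos hVpos hQpos
    linarith
  obtain ⟨p0, hp0⟩ := hGne
  have hq0 := (hp p0 hp0).1
  refine ⟨o1, hq0.v1, o2, hq0.v2, o3, hq0.v3, hq0.n12, hq0.n13, hq0.n23, ?_⟩
  refine hc.trans ?_
  have h1 : 15360 * K ^ 4 ≤ K ^ 20 := by
    calc 15360 * K ^ 4 ≤ K ^ 16 * K ^ 4 := by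
          apply mul_le_mul_of_nonneg_right _ (by positivity)
          norm_num at p16; linarith
      _ = K ^ 20 := by ring
  refine mul_le_mul h1 ?_ (Nat.cast_nonneg _) (by positivity)
  norm_cast
  refine card_le_card fun p hpG => ?_
  obtain ⟨h, hn⟩ := hp p hpG
  rw [mem_filter]
  have ne : ∀ {a b : Pt}, a ∈ V → b ∈ V → a ≠ b → u a ≠ u b := fun ha hb hne he =>
    hne (hinj _ ha _ hb he)
  have hr := h.nc.rho_le (ne h.va h.v1 h.n1a.symm) (ne h.va h.v2 h.n2a.symm)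
    (ne h.v3 h.v1 h.n13.symm) (ne h.v3 h.v2 h.n23.symm)
  exact ⟨hG hpG, h.e1, h.e2, h.e3, h.n1a.symm, h.n2a.symm, h.n3a.symm, hn.1, hn.2.1, hn.2.2,
    hr.1, hr.2⟩

end Vale.Agent.P065.H183
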