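import Vale.Agent.P065.H183.Defs

/-! # P065, upper bound: [STABLE] (helper183) -/

set_option autoImplicit false

namespace Vale.Agent.P065.H183

open Finset

section
variable {α β γ : Type}

open Classical in
/-- cell of `x` for a list of labels -/
noncomputable def cl (Q : Finset α) (lb : β → α → γ) (ps : List β) (x : α) : Finset α :=
  {z ∈ Q | ∀ p ∈ ps, lb p z = lb p x}

theorem mem_cl {Q : Finset α} {lb : β → α → γ} {ps : List β} {x z : α} :
    z ∈ cl Q lb ps x ↔ z ∈ Q ∧ ∀ p ∈ ps, lb p z = lb p x := by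
  classical
  unfold cl; rw [Finset.mem_filter]

theorem self_mem_cl {Q : Finset α} {lb : β → α → γ} {ps : List β} {x : α} (hx : x ∈ Q) :
    x ∈ cl Q lb ps x := mem_cl.2 ⟨hx, fun _ _ => rfl⟩

theorem cl_cons_subset {Q : Finset α} {lb : β → α → γ} {ps : List β} {p : β} {x : α} :
    cl Q lb (p :: ps) x ⊆ cl Q lb ps x := by
  intro z hz
  rw [mem_cl] at hz ⊢
  exact ⟨hz.1, fun q hq => hz.2 q (List.mem_cons_of_mem _ hq)⟩

/-- potential -/
noncomputable def Phi (Q X : Finset α) (lb : β → α → γ) (ps : List β) : ℝ :=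
  ∑ x ∈ X, Real.logb 2 #(cl Q lb ps x)

open Classical in
/-- bad pairs -/
noncomputable def Bad (Q X : Finset α) (P : Finset β) (lb : β → α → γ) (ps : List β) :
    Finset (α × β) :=
  {e ∈ X ×ˢ P | 2 * #(cl Q lb (e.2 :: ps) e.1) < #(cl Q lb ps e.1)}

theorem Phi_nonneg {Q X : Finset α} (lb : β → α → γ) (ps : List β) (hX : X ⊆ Q) :
    0 ≤ Phi Q X lb ps := by
  unfold Phi
  refine Finset.sum_nonneg fun x hx => ?_
  have : 1 ≤ #(cl Q lb ps x) := Finset.card_pos.2 ⟨x, self_mem_cl (hX hx)⟩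
  refine Real.logb_nonneg (by norm_num) (by exact_mod_cast this)

theorem Phi_nil_le {Q X : Finset α} (lb : β → α → γ) (hX : X ⊆ Q) :
    Phi Q X lb [] ≤ #X * Real.logb 2 #Q := by
  unfold Phi
  have : ∀ x ∈ X, Real.logb 2 #(cl Q lb [] x) ≤ Real.logb 2 #Q := by
    intro x hx
    have h1 : 1 ≤ #(cl Q lb [] x) := Finset.card_pos.2 ⟨x, self_mem_cl (hX hx)⟩
    have h2 : #(cl Q lb [] x) ≤ #Q := Finset.card_le_card (fun z hz => (mem_cl.1 hz).1)
    refine Real.logb_le_logb_of_le (by norm_num) (by exact_mod_cast h1) (by exact_mod_cast h2)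
  calc ∑ x ∈ X, Real.logb 2 #(cl Q lb [] x) ≤ ∑ _x ∈ X, Real.logb 2 #Q := Finset.sum_le_sum this
    _ = #X * Real.logb 2 #Q := by rw [Finset.sum_const, nsmul_eq_mul]

/-- one step -/
theorem Phi_step {Q X : Finset α} (P : Finset β) (lb : β → α → γ) (ps : List β) (hX : X ⊆ Q) :
    (#(Bad Q X P lb ps) : ℝ) ≤ ∑ p ∈ P, (Phi Q X lb ps - Phi Q X lb (p :: ps)) := by
  classical
  have h1 : (#(Bad Q X P lb ps) : ℝ) =
      ∑ p ∈ P, ∑ x ∈ X, if 2 * #(cl Q lb (p :: ps) x) < #(cl Q lb ps x) then (1 : ℝ) else 0 := by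
    unfold Bad
    rw [Finset.card_filter, Finset.sum_product_right]
    push_cast
    rfl
  rw [h1]
  refine Finset.sum_le_sum fun p _ => ?_
  unfold Phi
  rw [← Finset.sum_sub_distrib]
  refine Finset.sum_le_sum fun x hx => ?_
  have ha : 1 ≤ #(cl Q lb (p :: ps) x) := Finset.card_pos.2 ⟨x, self_mem_cl (hX hx)⟩
  have hb : #(cl Q lb (p :: ps) x) ≤ #(cl Q lb ps x) := Finset.card_le_card cl_cons_subset
  have ha' : (0 : ℝ) < #(cl Q lb (p :: ps) x) := by exact_mod_cast ha
  split_ifs with h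
  · have h2 : Real.logb 2 (2 * #(cl Q lb (p :: ps) x)) ≤ Real.logb 2 #(cl Q lb ps x) :=
      Real.logb_le_logb_of_le (by norm_num) (by positivity) (by exact_mod_cast h.le)
    rw [Real.logb_mul (by norm_num) ha'.ne', Real.logb_self_eq_one (by norm_num)] at h2
    linarith
  · have h2 : Real.logb 2 #(cl Q lb (p :: ps) x) ≤ Real.logb 2 #(cl Q lb ps x) :=
      Real.logb_le_logb_of_le (by norm_num) ha' (by exact_mod_cast hb)
    linarith

end

theorem stStable : StStable := by
  classical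
  intro α β γ Q X P lb Rr hXQ hR hX hP
  by_contra hcon
  push Not at hcon
  have hbad : ∀ ps : List β, ps.length < Rr → (∀ p ∈ ps, p ∈ P) →
      (#X : ℝ) * #P * Real.logb 2 #Q < (Rr : ℝ) * #(Bad Q X P lb ps) := by
    intro ps h1 h2
    have h3 := hcon ps h1 h2
    refine lt_of_lt_of_le h3 (le_of_eq ?_)
    congr 2
    unfold Bad cl
    congr 1
    ext e
    simp only [Finset.mem_filter, List.forall_mem_cons, and_congr_right_iff]
    intro _
    have : ({z ∈ Q | (∀ p ∈ ps, lb p z = lb p e.1) ∧ lb e.2 z = lb e.2 e.1} : Finset α)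
        = {z ∈ Q | lb e.2 z = lb e.2 e.1 ∧ ∀ p ∈ ps, lb p z = lb p e.1} := by
      ext z; simp only [Finset.mem_filter]; tauto
    rw [this]
  have hPpos : (0 : ℝ) < #P := by exact_mod_cast Finset.card_pos.2 hP
  have hXpos : (0 : ℝ) < #X := by exact_mod_cast Finset.card_pos.2 hX
  have hRpos : (0 : ℝ) < Rr := by exact_mod_cast hR
  have step : ∀ i : ℕ, i ≤ Rr → ∃ ps : List β, ps.length = i ∧ (∀ p ∈ ps, p ∈ P) ∧
      Phi Q X lb ps ≤ #X * Real.logb 2 #Q - i * (#X * Real.logb 2 #Q / Rr) ∧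
      (0 < i → Phi Q X lb ps < #X * Real.logb 2 #Q - i * (#X * Real.logb 2 #Q / Rr)) := by
    intro i
    induction i with
    | zero =>
      intro _
      refine ⟨[], rfl, by simp, ?_, by simp⟩
      have := Phi_nil_le (Q := Q) (X := X) lb hXQ
      simpa using this
    | succ i ih =>
      intro hi
      obtain ⟨ps, hlen, hps, hPhi, _⟩ := ih (by omega)
      have hb := hbad ps (by omega) hps
      have hs := Phi_step (Q := Q) (X := X) P lb ps hXQ
      -- choose p with a large decrease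
      have hex : ∃ p ∈ P, #X * Real.logb 2 #Q / Rr < Phi Q X lb ps - Phi Q X lb (p :: ps) := by
        by_contra hno
        push Not at hno
        have h4 : ∑ p ∈ P, (Phi Q X lb ps - Phi Q X lb (p :: ps)) ≤
            ∑ _p ∈ P, #X * Real.logb 2 #Q / Rr := Finset.sum_le_sum hno
        rw [Finset.sum_const, nsmul_eq_mul] at h4
        have h5 : (#(Bad Q X P lb ps) : ℝ) ≤ #P * (#X * Real.logb 2 #Q / Rr) := hs.trans h4
        have h6 : (Rr : ℝ) * #(Bad Q X P lb ps) ≤ Rr * (#P * (#X * Real.logb 2 #Q / Rr)) :=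
          mul_le_mul_of_nonneg_left h5 hRpos.le
        have h7 : (Rr : ℝ) * (#P * (#X * Real.logb 2 #Q / Rr)) = #X * #P * Real.logb 2 #Q := by
          field_simp
        linarith
      obtain ⟨p, hp, hdec⟩ := hex
      refine ⟨p :: ps, by simp [hlen], ?_, ?_, ?_⟩
      · intro q hq
        rcases List.mem_cons.1 hq with rfl | hq
        · exact hp
        · exact hps q hq
      · push_cast
        nlinarith
      · intro _
        push_cast
        nlinarith
  obtain ⟨ps, _, _, _, hlt⟩ := step Rr le_rfl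
  have h1 := hlt hR
  have h2 := Phi_nonneg (Q := Q) (X := X) lb ps hXQ
  have h3 : (Rr : ℝ) * (#X * Real.logb 2 #Q / Rr) = #X * Real.logb 2 #Q := by
    field_simp
  linarith

end Vale.Agent.P065.H183
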