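import Vale.Agent.P065.H183.Centre
import Vale.Agent.P065.UB.View.Out

/-!
# P065, upper bound: from `ViewJ` to `JView`, the joined pairs `JE` and their window `win` (helper183)
-/

set_option autoImplicit false

namespace Vale.Agent.P065.H183

open Finset Vale.Agent.P065.UB Vale.Agent.P065.UB.RankAux

variable {K lam : ℝ} {Q : Finset Pt} {W : Finset ℕ} {I : ℕ → Set ℝ} {T R : ℕ → Finset Pt}

/-- every `ViewJ` is a `JView` -/
theorem JView.of_viewJ (h : View.ViewJ K lam Q W I T R) : JView K lam Q W I R where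
  two := h.two
  one := h.one
  xinj := h.xinj
  conn := h.conn
  disj := h.disj
  cardW := h.cardW
  cardW' := h.cardW'
  subR := fun w hw => (h.subR w hw).trans (h.subT w hw)
  cardR := fun w hw => by
    have h1 := h.cardT w hw
    have h2 : (#(R w) : ℝ) ≤ #(T w) := by exact_mod_cast card_le_card (h.subR w hw)
    have h3 := h.one
    exact (mul_le_mul_of_nonneg_left h2 (by linarith)).trans h1
  cardR' := h.cardR
  touch := fun x hx => by
    classical
    refine le_trans ?_ (h.touch x hx)
    have : #{w ∈ W | x ∈ R w} ≤ #{w ∈ W | x ∈ T w} := by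
      refine card_le_card fun w hw => ?_
      rw [mem_filter] at hw ⊢
      exact ⟨hw.1, h.subR w hw.1 hw.2⟩
    convert (Nat.cast_le (α := ℝ)).2 this
  join := h.joinR
  star := h.star

open Classical in
/-- the joined (ordered) pairs -/
noncomputable def JE (Q : Finset Pt) (W : Finset ℕ) (I : ℕ → Set ℝ) (R : ℕ → Finset Pt) :
    Finset (Pt × Pt) := {e ∈ Q ×ˢ Q | JJ I R W e.1 e.2}

open Classical in
/-- the window of a joined pair -/
noncomputable def win (W : Finset ℕ) (I : ℕ → Set ℝ) (R : ℕ → Finset Pt) (x y : Pt) : ℕ :=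
  if h : JJ I R W x y then h.choose else 0

theorem mem_JE {x y : Pt} : (x, y) ∈ JE Q W I R ↔ (x ∈ Q ∧ y ∈ Q) ∧ JJ I R W x y := by
  classical
  unfold JE
  rw [mem_filter, mem_product]

theorem win_spec {x y : Pt} (h : JJ I R W x y) :
    win W I R x y ∈ W ∧ Jn I R (win W I R x y) x y := by
  unfold win
  rw [dif_pos h]
  exact h.choose_spec

theorem JE_symm {x y : Pt} (h : (x, y) ∈ JE Q W I R) : (y, x) ∈ JE Q W I R := by
  rw [mem_JE] at h ⊢
  exact ⟨⟨h.1.2, h.1.1⟩, h.2.symm⟩

theorem JView.win_eq (h : JView K lam Q W I R) {x y : Pt} {w : ℕ} (hw : w ∈ W)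
    (hj : Jn I R w x y) : win W I R x y = w := by
  have h1 := win_spec (W := W) (I := I) (R := R) ⟨w, hw, hj⟩
  exact h.uniq h1.1 hw h1.2 hj

theorem JView.win_comm (h : JView K lam Q W I R) {x y : Pt} (hj : JJ I R W x y) :
    win W I R y x = win W I R x y := by
  have h1 := win_spec hj
  exact h.win_eq h1.1 h1.2.symm

/-- many joined pairs -/
theorem JView.card_JE (h : JView K lam Q W I R) (hQ : lam ^ 2 ≤ (#Q : ℝ))
    (hbig : K ^ 32 ≤ lam) : (#Q : ℝ) ^ 2 ≤ K ^ 37 * #(JE Q W I R) := by
  classical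
  refine (h.pairs_low hQ hbig).trans ?_
  have h1 : #(JP K lam Q W I R) ≤ #(JE Q W I R) := by
    refine card_le_card fun e he => ?_
    unfold JP at he
    unfold JE
    rw [mem_filter, mem_product] at he ⊢
    exact ⟨⟨XX_sub he.1.1, XX_sub he.1.2⟩, he.2⟩
  have hK := h.two
  exact mul_le_mul_of_nonneg_left (by exact_mod_cast h1) (by positivity)

/-- the same, with both members of the pair in at least `lam / K ^ 3` rich sets -/
theorem JView.card_JE' (h : JView K lam Q W I R) (hQ : lam ^ 2 ≤ (#Q : ℝ))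
    (hbig : K ^ 32 ≤ lam) : (#Q : ℝ) ^ 2 ≤ K ^ 37 * #(JP K lam Q W I R) :=
  h.pairs_low hQ hbig

open Classical in
/-- the number of windows used at a point -/
theorem JView.card_win (h : JView K lam Q W I R) {x : Pt} (hx : x ∈ Q) :
    (#(((JE Q W I R).filter (fun e => e.1 = x)).image fun e => win W I R e.1 e.2) : ℝ) ≤
      K * lam := by
  refine le_trans ?_ (h.touch x hx)
  norm_cast
  refine card_le_card ?_
  intro w hw
  rw [mem_image] at hw
  obtain ⟨⟨y, z⟩, he, rfl⟩ := hw
  rw [mem_filter] at he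
  obtain ⟨he1, he2⟩ := he
  simp only at he2
  subst he2
  have h1 := win_spec (mem_JE.1 he1).2
  rw [mem_filter]
  exact ⟨h1.1, h1.2.1⟩

open Classical in
/-- the number of partners of a point through one window -/
theorem JView.card_part (h : JView K lam Q W I R) {x : Pt} {w : ℕ} (hw : w ∈ W) :
    lam * #{z ∈ Q | (x, z) ∈ JE Q W I R ∧ win W I R x z = w} ≤ K * #Q := by
  refine le_trans ?_ (h.cardR w hw)
  have h1 : #{z ∈ Q | (x, z) ∈ JE Q W I R ∧ win W I R x z = w} ≤ #(R w) := by
    refine card_le_card fun z hz => ?_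
    rw [mem_filter] at hz
    have h1 := win_spec (mem_JE.1 hz.2.1).2
    rw [hz.2.2] at h1
    exact h1.2.2.1
  have h2 := h.one
  exact mul_le_mul_of_nonneg_left (by exact_mod_cast h1) (by linarith)

end Vale.Agent.P065.H183
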